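import Vale.Agent.P111.VecCube

/-! Bounds for the chaos projections in a space with bounded Rademacher projection. -/

set_option linter.unusedSectionVars false

namespace Vale.Agent.P111

open Finset

variable {k : ℕ} {E : Type*} [NormedAddCommGroup E] [NormedSpace ℝ E]

/-- `η` on `B`, `x` elsewhere. -/
def mix (B : Finset (Fin k)) (η x : Fin k → Bool) : Fin k → Bool :=
  fun i => if i ∈ B then η i else x i

theorem walsh_mix (B T : Finset (Fin k)) (η x : Fin k → Bool) :
    walsh T (mix B η x) = walsh (T ∩ B) η * walsh (T \ B) x := by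
  classical
  unfold walsh
  rw [← Finset.prod_inter_mul_prod_sdiff T B (fun i => sgn (mix B η x i))]
  congr 1
  · refine Finset.prod_congr rfl fun i hi => ?_
    rw [Finset.mem_inter] at hi; simp [mix, hi.2]
  · refine Finset.prod_congr rfl fun i hi => ?_
    rw [Finset.mem_sdiff] at hi; simp [mix, hi.2]

/-- Symbol of the projection `one index in B`. -/
def oneIn (B S : Finset (Fin k)) : ℝ := if (S ∩ B).card = 1 then 1 else 0

theorem sum_sgn_mix (B T : Finset (Fin k)) (x : Fin k → Bool) :
    ∑ i, sgn (x i) * ∑ η : Fin k → Bool, sgn (η i) * walsh T (mix B η x)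
      = (2 : ℝ) ^ k * (oneIn B T * walsh T x) := by
  classical
  have h : ∀ i, sgn (x i) * ∑ η : Fin k → Bool, sgn (η i) * walsh T (mix B η x)
      = if ({i} : Finset (Fin k)) = T ∩ B then (2 : ℝ) ^ k * walsh T x else 0 := by
    intro i
    simp_rw [walsh_mix, ← mul_assoc, ← Finset.sum_mul]
    have h1 : ∀ η : Fin k → Bool, sgn (η i) = walsh {i} η := by simp [walsh]
    simp_rw [h1, walsh_orth]
    split_ifs with h2
    · have : walsh T x = walsh (T ∩ B) x * walsh (T \ B) x := by
        unfold walsh; rw [Finset.prod_inter_mul_prod_sdiff]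
      rw [this, ← h2]; ring
    · ring
  rw [Finset.sum_congr rfl fun i _ => h i]
  unfold oneIn
  split_ifs with hc
  · obtain ⟨j, hj⟩ := Finset.card_eq_one.mp hc
    rw [hj]; simp
  · rw [zero_mul, mul_zero]
    refine Finset.sum_eq_zero fun i _ => ?_
    rw [if_neg]; intro h2; exact hc (by rw [← h2]; simp)

/-- The `i`-th Rademacher coefficient of `η ↦ f (η on B, x off B)`. -/
noncomputable def coef (B : Finset (Fin k)) (f : (Fin k → Bool) → E) (x : Fin k → Bool)
    (i : Fin k) : E :=
  ((2 : ℝ) ^ k)⁻¹ • ∑ η : Fin k → Bool, sgn (η i) • f (mix B η x)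

theorem vmult_oneIn (B : Finset (Fin k)) (f : (Fin k → Bool) → E) (x : Fin k → Bool) :
    vmult (oneIn B) f x = ∑ i, sgn (x i) • coef B f x i := by
  classical
  have h2 : (2 : ℝ) ^ k ≠ 0 := pow_ne_zero _ two_ne_zero
  have hf : ∀ z, f z = vmult (fun _ => (1 : ℝ)) f z := fun z => by rw [vmult_one]
  have hk : ∀ y : Fin k → Bool, mker (oneIn B) x y
      = ((2 : ℝ) ^ k)⁻¹ * ∑ i, sgn (x i) * ∑ η : Fin k → Bool,
          sgn (η i) * mker (fun _ => (1 : ℝ)) (mix B η x) y := by
    intro y
    rw [eq_inv_mul_iff_mul_eq₀ h2]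
    calc (2 : ℝ) ^ k * mker (oneIn B) x y
        = ∑ T, ((2 : ℝ) ^ k * (oneIn B T * walsh T x)) * walsh T y := by
          rw [mker, Finset.mul_sum]; exact Finset.sum_congr rfl fun T _ => by ring
      _ = ∑ T, (∑ i, sgn (x i) * ∑ η : Fin k → Bool, sgn (η i) * walsh T (mix B η x))
            * walsh T y := by simp_rw [sum_sgn_mix]
      _ = _ := by
          simp only [mker, Finset.mul_sum, Finset.sum_mul]
          rw [Finset.sum_comm]
          refine Finset.sum_congr rfl fun i _ => ?_
          rw [Finset.sum_comm]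
          exact Finset.sum_congr rfl fun η _ => Finset.sum_congr rfl fun T _ => by ring
  unfold coef
  conv_rhs => simp only [hf (mix B _ x)]
  simp only [vmult, hk, Finset.smul_sum, smul_smul, Finset.mul_sum, Finset.sum_smul]
  rw [Finset.sum_comm]
  refine Finset.sum_congr rfl fun i _ => ?_
  rw [Finset.sum_comm]
  exact Finset.sum_congr rfl fun η _ => Finset.sum_congr rfl fun y _ => by congr 1; ring

theorem coef_eq_zero (B : Finset (Fin k)) (f : (Fin k → Bool) → E) (x : Fin k → Bool)
    {i : Fin k} (hi : i ∉ B) : coef B f x i = 0 := by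
  classical
  have h : ∑ η : Fin k → Bool, sgn (η i) • f (mix B η x) = 0 := by
    refine Finset.sum_involution (fun η _ => Function.update η i (!η i)) ?_ ?_ ?_ ?_
    · intro η _
      have hm : mix B (Function.update η i (!η i)) x = mix B η x := by
        funext j; by_cases hj : j ∈ B
        · have : j ≠ i := fun h => hi (h ▸ hj)
          simp [mix, hj, this]
        · simp [mix, hj]
      rw [hm, Function.update_self, ← add_smul]
      cases η i <;> simp [sgn]
    · intro η _ _ h
      have := congrFun h i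
      simp at this
    · intro η _; exact mem_univ _
    · intro η _; simp
  rw [coef, h, smul_zero]

/-- The projection on sets meeting `B` in one point is bounded by `K`. -/
theorem l2n_oneIn {K : ℝ} (hK : 0 ≤ K) (hE : RadBound E k K) (B : Finset (Fin k))
    (f : (Fin k → Bool) → E) : l2n (vmult (oneIn B) f) ≤ K * l2n f := by
  classical
  refine l2n_le_of_sq _ (mul_nonneg hK (l2n_nonneg f)) ?_
  rw [mul_pow, l2n_sq]
  set G : (Fin k → Bool) → (Fin k → Bool) → ℝ :=
    fun x σ => ‖∑ i, sgn (σ i) • coef B f x i‖ ^ 2 with hG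
  have hG0 : ∀ x, ‖vmult (oneIn B) f x‖ ^ 2 = G x x := fun x => by rw [vmult_oneIn]
  let e : (Fin k → Bool) × (Fin k → Bool) → (Fin k → Bool) × (Fin k → Bool) :=
    fun p => (mix B p.2 p.1, mix B p.1 p.2)
  have he : Function.Involutive e := by
    intro p
    refine Prod.ext ?_ ?_ <;> funext i <;> by_cases hi : i ∈ B <;> simp [e, mix, hi]
  have hswap : ∀ p, G (e p).1 (e p).1 = G p.1 p.2 := by
    intro p
    have hm : ∀ η, mix B η (mix B p.2 p.1) = mix B η p.1 := by
      intro η; funext i; by_cases hi : i ∈ B <;> simp [mix, hi]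
    simp only [hG, e]
    congr 2
    refine Finset.sum_congr rfl fun i _ => ?_
    have hc : coef B f (mix B p.2 p.1) i = coef B f p.1 i := by simp only [coef, hm]
    rw [hc]
    by_cases hi : i ∈ B
    · simp [mix, hi]
    · simp [coef_eq_zero B f p.1 hi]
  have h2 : (0 : ℝ) < (2 : ℝ) ^ k := by positivity
  have hcard : (Fintype.card (Fin k → Bool) : ℝ) = (2 : ℝ) ^ k := by simp
  have h1 : (2 : ℝ) ^ k * ∑ x, G x x = ∑ p : (Fin k → Bool) × (Fin k → Bool), G p.1 p.2 := by
    rw [← Finset.sum_congr rfl fun p _ => hswap p,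
      he.bijective.sum_comp (fun p => G p.1 p.1), Fintype.sum_prod_type, ← hcard, Finset.mul_sum]
    simp
  have h3 : ∀ x, ∑ σ, G x σ ≤ K ^ 2 * ∑ η, ‖f (mix B η x)‖ ^ 2 := fun x =>
    hE fun η => f (mix B η x)
  have h4 : ∑ x, ∑ η, ‖f (mix B η x)‖ ^ 2 = (2 : ℝ) ^ k * ∑ x, ‖f x‖ ^ 2 := by
    rw [← Fintype.sum_prod_type' (fun x η => ‖f (mix B η x)‖ ^ 2)]
    change ∑ p, ‖f (e p).1‖ ^ 2 = _
    rw [he.bijective.sum_comp (fun p => ‖f p.1‖ ^ 2), Fintype.sum_prod_type, ← hcard, Finset.mul_sum]
    simp
  refine le_of_mul_le_mul_left ?_ h2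
  simp only [hG0]
  rw [h1, Fintype.sum_prod_type]
  refine le_trans (Finset.sum_le_sum fun x _ => h3 x) (le_of_eq ?_)
  rw [← Finset.mul_sum, h4]; ring

theorem l2n_prod {K : ℝ} (hK : 0 ≤ K) (hE : RadBound E k K) {ι : Type*} (J : Finset ι)
    (B : ι → Finset (Fin k)) (f : (Fin k → Bool) → E) :
    l2n (vmult (fun S => ∏ j ∈ J, oneIn (B j) S) f) ≤ K ^ J.card * l2n f := by
  classical
  induction J using Finset.induction with
  | empty => simp [vmult_one]
  | insert j J hj ih =>
    rw [vmult_congr (m' := fun S => oneIn (B j) S * ∏ i ∈ J, oneIn (B i) S)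
      (fun S => Finset.prod_insert hj), ← vmult_comp, Finset.card_insert_of_notMem hj]
    refine le_trans (l2n_oneIn hK hE _ _) ?_
    rw [pow_succ', mul_assoc]
    exact mul_le_mul_of_nonneg_left ih hK

/-- Number of colourings with `n` colours that are bijective on `S`. -/
theorem sum_colour (n : ℕ) (S : Finset (Fin k)) :
    ∑ c : Fin k → Fin n, ∏ j, oneIn (univ.filter fun i => c i = j) S
      = if S.card = n then (n : ℝ) ^ (k - n) * (n.factorial : ℝ) else 0 := by
  classical
  have hP : ∀ c : Fin k → Fin n, ∏ j, oneIn (univ.filter fun i => c i = j) S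
      = if Function.Bijective (fun i : S => c i) then 1 else 0 := by
    intro c
    have hfib : ∀ j, (S ∩ univ.filter fun i => c i = j).card
        = (univ.filter fun i : S => c i = j).card := by
      intro j
      rw [← Finset.card_map (Function.Embedding.subtype (· ∈ S))]
      congr 1; ext i; simp [and_comm]
    simp only [oneIn, hfib]
    have hiff : (∀ j ∈ (univ : Finset (Fin n)), (univ.filter fun i : S => c i = j).card = 1) ↔
        Function.Bijective fun i : S => c i := by
      rw [Function.bijective_iff_existsUnique]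
      refine ⟨fun h j => ?_, fun h j _ => ?_⟩
      · obtain ⟨a, ha⟩ := Finset.card_eq_one.mp (h j (mem_univ j))
        refine ⟨a, ?_, fun b hb => ?_⟩
        · have := (Finset.ext_iff.mp ha a).mpr (mem_singleton_self a)
          simpa using this
        · exact mem_singleton.mp ((Finset.ext_iff.mp ha b).mp (by simpa using hb))
      · obtain ⟨a, ha, hu⟩ := h j
        refine Finset.card_eq_one.mpr ⟨a, ?_⟩
        ext b; simp only [mem_filter, mem_univ, true_and, mem_singleton]
        exact ⟨fun hb => hu b hb, fun hb => hb ▸ ha⟩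
    rw [Finset.prod_boole]
    by_cases hb : Function.Bijective fun i : S => c i
    · rw [if_pos hb, if_pos (hiff.mpr hb)]
    · rw [if_neg hb, if_neg (mt hiff.mp hb)]
  rw [Finset.sum_congr rfl fun c _ => hP c, Finset.sum_boole]
  let e := Equiv.piEquivPiSubtypeProd (fun i => i ∈ S) (fun _ => Fin n)
  have he : (univ.filter fun c : Fin k → Fin n => Function.Bijective fun i : S => c i).card
      = ((univ.filter fun g : S → Fin n => Function.Bijective g) ×ˢ
          (univ : Finset ({i // i ∉ S} → Fin n))).card := by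
    refine Finset.card_equiv e fun c => ?_
    simp [e, Equiv.piEquivPiSubtypeProd]
  rw [he, Finset.card_product]
  split_ifs with hc
  · have hb : (univ.filter fun g : S → Fin n => Function.Bijective g).card = n.factorial := by
      have he0 : S ≃ Fin n := Fintype.equivFinOfCardEq (by simp [hc])
      rw [← Fintype.card_subtype,
        ← Fintype.card_congr (⟨fun e => ⟨e, e.bijective⟩, fun g => Equiv.ofBijective g.1 g.2,
          fun e => by ext; rfl, fun g => by ext; rfl⟩ : (S ≃ Fin n) ≃ _),
        Fintype.card_equiv he0]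
      simp [hc]
    rw [hb]
    simp [Fintype.card_subtype_compl, hc]
    ring
  · have hb : (univ.filter fun g : S → Fin n => Function.Bijective g) = ∅ := by
      refine Finset.filter_eq_empty_iff.mpr fun g _ hg => hc ?_
      simpa using Fintype.card_of_bijective hg
    rw [hb]
    simp

/-- The chaos projection of degree `n` has norm at most `(3 K) ^ n`. -/
theorem l2n_chaos {K : ℝ} (hK : 0 ≤ K) (hE : RadBound E k K) (n : ℕ) (hn : n ≤ k)
    (f : (Fin k → Bool) → E) :
    l2n (vmult (fun S => if S.card = n then (1 : ℝ) else 0) f) ≤ (3 * K) ^ n * l2n f := by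
  classical
  set M : ℝ := (n : ℝ) ^ (k - n) * (n.factorial : ℝ) with hM
  have hnn : (0 : ℝ) < (n : ℝ) ^ (k - n) ∨ n = 0 := by
    rcases Nat.eq_zero_or_pos n with h | h
    · exact Or.inr h
    · exact Or.inl (by positivity)
  rcases hnn with hpos | h0
  swap
  · subst h0
    rw [vmult_congr (m' := fun S => (0 : ℝ) ^ S.card) (fun S => by rw [zero_pow_eq]), pow_zero,
      one_mul]
    exact l2n_noise 0 (by simp) f
  have hMp : 0 < M := by positivity
  rw [vmult_congr (m' := fun S => ∑ c : Fin k → Fin n,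
      M⁻¹ * ∏ j, oneIn (univ.filter fun i => c i = j) S) (fun S => by
    rw [← Finset.mul_sum, sum_colour, mul_ite, mul_zero, ← hM, inv_mul_cancel₀ hMp.ne'])]
  rw [vmult_sum]
  refine le_trans (l2n_sum_le _ _) ?_
  refine le_trans (Finset.sum_le_card_nsmul _ _ (M⁻¹ * (K ^ n * l2n f)) fun c _ => ?_) ?_
  · rw [l2n_smul, abs_of_pos (inv_pos.mpr hMp)]
    refine mul_le_mul_of_nonneg_left ?_ (inv_pos.mpr hMp).le
    exact le_trans (l2n_prod hK hE univ _ f) (by simp)
  · simp only [Finset.card_univ, Fintype.card_fun, Fintype.card_fin, nsmul_eq_mul]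
    push_cast
    have hsplit : (n : ℝ) ^ k = (n : ℝ) ^ (k - n) * (n : ℝ) ^ n := by
      rw [← pow_add, Nat.sub_add_cancel hn]
    have hfac : (n : ℝ) ^ n / (n.factorial : ℝ) ≤ 3 ^ n := by
      refine le_trans (Real.pow_div_factorial_le_exp _ (Nat.cast_nonneg n) n) ?_
      rw [← Real.exp_one_pow]
      exact pow_le_pow_left₀ (Real.exp_pos 1).le (Real.exp_one_lt_d9.le.trans (by norm_num)) n
    calc (n : ℝ) ^ k * (M⁻¹ * (K ^ n * l2n f))
        = (n : ℝ) ^ n / (n.factorial : ℝ) * (K ^ n * l2n f) := by
          rw [hsplit, hM]; field_simp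
      _ ≤ 3 ^ n * (K ^ n * l2n f) :=
          mul_le_mul_of_nonneg_right hfac (mul_nonneg (pow_nonneg hK n) (l2n_nonneg f))
      _ = _ := by rw [mul_pow]; ring

end Vale.Agent.P111
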