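import Vale.Agent.P111.Defs

/-! Elementary Fourier analysis on the finite cube. -/

namespace Vale.Agent.P111

open Finset

theorem sgn_mul_self (b : Bool) : sgn b * sgn b = 1 := by cases b <;> simp [sgn]

theorem abs_sgn (b : Bool) : |sgn b| = 1 := by cases b <;> simp [sgn]

variable {k : ℕ}

/-- Walsh character. -/
def walsh (S : Finset (Fin k)) (x : Fin k → Bool) : ℝ := ∏ i ∈ S, sgn (x i)

theorem walsh_orth (S T : Finset (Fin k)) :
    ∑ x : Fin k → Bool, walsh S x * walsh T x = if S = T then (2 : ℝ) ^ k else 0 := by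
  classical
  let F : Fin k → Bool → ℝ := fun i b =>
    (if i ∈ S then sgn b else 1) * (if i ∈ T then sgn b else 1)
  have h1 : ∀ x : Fin k → Bool, walsh S x * walsh T x = ∏ i, F i (x i) := by
    intro x
    simp only [F, Finset.prod_mul_distrib, walsh]
    rw [Finset.prod_ite_mem, Finset.prod_ite_mem, univ_inter, univ_inter]
  simp_rw [h1]
  rw [← Fintype.prod_sum F]
  split_ifs with h
  · subst h
    have : ∀ i, ∑ b : Bool, F i b = 2 := by
      intro i; by_cases hi : i ∈ S <;> simp [F, hi, sgn_mul_self] <;> norm_num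
    rw [Finset.prod_congr rfl fun i _ => this i]
    simp
  · obtain ⟨i, hi⟩ : ∃ i, ¬(i ∈ S ↔ i ∈ T) := by
      by_contra hne; push Not at hne; exact h (Finset.ext hne)
    refine Finset.prod_eq_zero (mem_univ i) ?_
    by_cases hs : i ∈ S <;> by_cases ht : i ∈ T <;> simp_all [F, sgn]

/-- Fourier coefficient. -/
noncomputable def fhat (a : (Fin k → Bool) → ℝ) (S : Finset (Fin k)) : ℝ :=
  ((2 : ℝ) ^ k)⁻¹ * ∑ x : Fin k → Bool, walsh S x * a x

/-- Multiplier operator with symbol depending only on the degree. -/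
noncomputable def mult (b : ℕ → ℝ) (a : (Fin k → Bool) → ℝ) (x : Fin k → Bool) : ℝ :=
  ∑ S : Finset (Fin k), b S.card * fhat a S * walsh S x

theorem sum_sq_expansion (e : Finset (Fin k) → ℝ) :
    ∑ x : Fin k → Bool, (∑ S, e S * walsh S x) ^ 2 = (2 : ℝ) ^ k * ∑ S, e S ^ 2 := by
  classical
  simp_rw [sq, Finset.sum_mul, Finset.mul_sum]
  rw [Finset.sum_comm]
  refine Finset.sum_congr rfl fun S _ => ?_
  rw [Finset.sum_comm]
  have : ∀ T : Finset (Fin k), ∑ x : Fin k → Bool, e S * walsh S x * (e T * walsh T x)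
      = if S = T then e S * e T * (2 : ℝ) ^ k else 0 := by
    intro T
    have h := walsh_orth S T
    calc ∑ x : Fin k → Bool, e S * walsh S x * (e T * walsh T x)
        = e S * e T * ∑ x : Fin k → Bool, walsh S x * walsh T x := by
          rw [Finset.mul_sum]; exact Finset.sum_congr rfl fun x _ => by ring
      _ = _ := by rw [h]; split_ifs <;> ring
  simp_rw [this]
  simp; ring

theorem bessel (a : (Fin k → Bool) → ℝ) :
    (2 : ℝ) ^ k * ∑ S, fhat a S ^ 2 ≤ ∑ x, a x ^ 2 := by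
  classical
  have h0 : 0 ≤ ∑ x : Fin k → Bool, (a x - ∑ S, fhat a S * walsh S x) ^ 2 :=
    Finset.sum_nonneg fun x _ => sq_nonneg _
  simp only [sub_sq, Finset.sum_add_distrib, Finset.sum_sub_distrib, sum_sq_expansion] at h0
  have h1 : ∑ x : Fin k → Bool, 2 * a x * ∑ S, fhat a S * walsh S x
      = 2 * ((2 : ℝ) ^ k * ∑ S, fhat a S ^ 2) := by
    simp_rw [Finset.mul_sum]
    rw [Finset.sum_comm]
    refine Finset.sum_congr rfl fun S _ => ?_
    have h2 : (2 : ℝ) ^ k * fhat a S = ∑ x, walsh S x * a x := by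
      rw [fhat, ← mul_assoc, mul_inv_cancel₀ (pow_ne_zero _ two_ne_zero), one_mul]
    calc ∑ x : Fin k → Bool, 2 * a x * (fhat a S * walsh S x)
        = 2 * fhat a S * ∑ x : Fin k → Bool, walsh S x * a x := by
          rw [Finset.mul_sum]; exact Finset.sum_congr rfl fun x _ => by ring
      _ = _ := by rw [← h2]; ring
  linarith

theorem mult_sq_le (b : ℕ → ℝ) (β : ℝ) (hb : ∀ n, |b n| ≤ β) (a : (Fin k → Bool) → ℝ) :
    ∑ x, mult b a x ^ 2 ≤ β ^ 2 * ∑ x, a x ^ 2 := by
  have hβ : 0 ≤ β := le_trans (abs_nonneg _) (hb 0)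
  calc ∑ x, mult b a x ^ 2 = (2 : ℝ) ^ k * ∑ S, (b S.card * fhat a S) ^ 2 :=
        sum_sq_expansion _
    _ ≤ (2 : ℝ) ^ k * ∑ S, β ^ 2 * fhat a S ^ 2 := by
        refine mul_le_mul_of_nonneg_left (Finset.sum_le_sum fun S _ => ?_) (by positivity)
        rw [mul_pow]
        refine mul_le_mul_of_nonneg_right ?_ (sq_nonneg _)
        exact (sq_abs (b S.card)).symm.trans_le (pow_le_pow_left₀ (abs_nonneg _) (hb _) 2)
    _ = β ^ 2 * ((2 : ℝ) ^ k * ∑ S, fhat a S ^ 2) := by rw [← Finset.mul_sum]; ring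
    _ ≤ _ := mul_le_mul_of_nonneg_left (bessel a) (sq_nonneg _)

/-- Riesz product weight of the noise operator. -/
def rw' (t : ℝ) (x y : Fin k → Bool) : ℝ := ∏ i, (1 + t * (sgn (x i) * sgn (y i)))

theorem rw'_nonneg (t : ℝ) (ht : |t| ≤ 1) (x y : Fin k → Bool) : 0 ≤ rw' t x y := by
  refine Finset.prod_nonneg fun i _ => ?_
  have : |t * (sgn (x i) * sgn (y i))| ≤ 1 := by simpa [abs_mul, abs_sgn] using ht
  linarith [neg_le_of_abs_le this]

theorem rw'_sum (t : ℝ) (x : Fin k → Bool) :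
    ∑ y : Fin k → Bool, rw' t x y = (2 : ℝ) ^ k := by
  classical
  unfold rw'
  rw [← Fintype.prod_sum (fun i (b : Bool) => 1 + t * (sgn (x i) * sgn b))]
  have : ∀ i : Fin k, ∑ b : Bool, (1 + t * (sgn (x i) * sgn b)) = 2 := by
    intro i; simp [sgn]; ring
  rw [Finset.prod_congr rfl fun i _ => this i]
  simp

theorem rw'_expand (t : ℝ) (x y : Fin k → Bool) :
    rw' t x y = ∑ S : Finset (Fin k), t ^ S.card * (walsh S x * walsh S y) := by
  classical
  unfold rw'
  rw [Finset.prod_one_add, Finset.powerset_univ]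
  refine Finset.sum_congr rfl fun S _ => ?_
  rw [Finset.prod_mul_distrib, Finset.prod_mul_distrib, Finset.prod_const]
  rfl

theorem mult_pow (t : ℝ) (a : (Fin k → Bool) → ℝ) (x : Fin k → Bool) :
    mult (fun n => t ^ n) a x = ((2 : ℝ) ^ k)⁻¹ * ∑ y, rw' t x y * a y := by
  simp_rw [rw'_expand, Finset.sum_mul]
  rw [Finset.sum_comm, Finset.mul_sum]
  refine Finset.sum_congr rfl fun S _ => ?_
  rw [fhat, Finset.mul_sum, Finset.mul_sum, Finset.mul_sum, Finset.sum_mul]
  exact Finset.sum_congr rfl fun y _ => by ring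

theorem mult_deg_one (a : (Fin k → Bool) → ℝ) (x : Fin k → Bool) :
    mult (fun n => if n = 1 then 1 else 0) a x = ∑ i, fhat a {i} * sgn (x i) := by
  classical
  simp only [mult, ite_mul, one_mul, zero_mul]
  rw [← Finset.sum_filter]
  have h : (univ : Finset (Finset (Fin k))).filter (fun S => S.card = 1)
      = (univ : Finset (Fin k)).map ⟨fun i => {i}, Finset.singleton_injective⟩ := by
    ext S; simp [Finset.card_eq_one, eq_comm]
  rw [h, Finset.sum_map]
  simp [walsh]

end Vale.Agent.P111
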