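import Mathlib

/-! Definitions used in the statements of P111 results. -/

namespace Vale.Agent.P111

/-- The sign `±1` attached to a Boolean. -/
def sgn (b : Bool) : ℝ := if b then 1 else -1

/-- The Rademacher projection on the cube of dimension `k` has `L²` norm at most `K` on `E`. -/
def RadBound (E : Type*) [NormedAddCommGroup E] [NormedSpace ℝ E] (k : ℕ) (K : ℝ) : Prop :=
  ∀ f : (Fin k → Bool) → E,
    ∑ σ : Fin k → Bool, ‖∑ i, sgn (σ i) • (((2 : ℝ) ^ k)⁻¹ • ∑ η, sgn (η i) • f η)‖ ^ 2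
      ≤ K ^ 2 * ∑ σ : Fin k → Bool, ‖f σ‖ ^ 2

/-- `X*` has cotype `r` with constant at most `Cr` (Rademacher averages in `L²`). -/
def DualCotype (X : Type*) [NormedAddCommGroup X] [NormedSpace ℝ X] (r Cr : ℝ) : Prop :=
  ∀ (s : ℕ) (y : Fin s → StrongDual ℝ X),
    (∑ i, ‖y i‖ ^ r) ^ (1 / r)
      ≤ Cr * Real.sqrt (((2 : ℝ) ^ s)⁻¹ * ∑ x : Fin s → Bool, ‖∑ i, sgn (x i) • y i‖ ^ 2)

/-- `X` contains the `ℓ₁ˢ` uniformly. -/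
def HasUniformEllOne (X : Type*) [NormedAddCommGroup X] [NormedSpace ℝ X] : Prop :=
  ∃ C : ℝ, ∀ s : ℕ, ∃ x : Fin s → X, ∀ a : Fin s → ℝ,
    ∑ i, |a i| ≤ C * ‖∑ i, a i • x i‖ ∧ ‖∑ i, a i • x i‖ ≤ ∑ i, |a i|

/-- `X` has Rademacher type `p`. -/
def HasRadType (X : Type*) [NormedAddCommGroup X] [NormedSpace ℝ X] (p : ℝ) : Prop :=
  ∃ D : ℝ, ∀ (s : ℕ) (x : Fin s → X),
    Real.sqrt (((2 : ℝ) ^ s)⁻¹ * ∑ σ : Fin s → Bool, ‖∑ i, sgn (σ i) • x i‖ ^ 2)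
      ≤ D * (∑ i, ‖x i‖ ^ p) ^ (1 / p)

/-- `X` has cotype `q` with constant at most `Cq`, natural exponent. -/
def PrimalCotype (X : Type*) [NormedAddCommGroup X] [NormedSpace ℝ X] (q : ℕ) (Cq : ℝ) : Prop :=
  ∀ (s : ℕ) (y : Fin s → X),
    (∑ i, ‖y i‖ ^ q) ^ (1 / (q : ℝ))
      ≤ Cq * Real.sqrt (((2 : ℝ) ^ s)⁻¹ * ∑ x : Fin s → Bool, ‖∑ i, sgn (x i) • y i‖ ^ 2)

end Vale.Agent.P111
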