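import Vale.Agent.P111.SupFactor

/-! Operators factoring through `ℓ₁^M` when the dual has finite cotype. -/

set_option linter.unusedSectionVars false

namespace Vale.Agent.P111

open Finset

universe u

variable {k : ℕ}

theorem primalCotype_dual {X : Type u} [NormedAddCommGroup X] [NormedSpace ℝ X] {r Cr : ℝ}
    (hr : 0 < r) (hcot : DualCotype X r Cr) :
    PrimalCotype (StrongDual ℝ X) ⌈r⌉₊ Cr := by
  intro s y
  refine le_trans ?_ (hcot s y)
  set n := ⌈r⌉₊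
  have hn : r ≤ (n : ℝ) := Nat.le_ceil r
  have hn0 : (0 : ℝ) < n := lt_of_lt_of_le hr hn
  have hnn : ∀ i, 0 ≤ ‖y i‖ ^ r := fun i => Real.rpow_nonneg (norm_nonneg _) _
  set A := (∑ i, ‖y i‖ ^ r) ^ (1 / r) with hA
  have hS0 : 0 ≤ ∑ i, ‖y i‖ ^ r := Finset.sum_nonneg fun i _ => hnn i
  have hA0 : 0 ≤ A := Real.rpow_nonneg hS0 _
  have hAr : A ^ r = ∑ i, ‖y i‖ ^ r := by rw [hA, one_div, Real.rpow_inv_rpow hS0 hr.ne']
  have hle : ∀ i, ‖y i‖ ≤ A := by
    intro i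
    refine (Real.rpow_le_rpow_iff (norm_nonneg _) hA0 hr).mp ?_
    rw [hAr]; exact Finset.single_le_sum (fun j _ => hnn j) (mem_univ i)
  have hsum : ∑ i, ‖y i‖ ^ n ≤ A ^ n := by
    have h : ∀ i, ‖y i‖ ^ n ≤ ‖y i‖ ^ r * A ^ ((n : ℝ) - r) := by
      intro i
      rcases (norm_nonneg (y i)).eq_or_lt with h0 | h0
      · rw [← h0, zero_pow (by exact_mod_cast hn0.ne')]
        exact mul_nonneg (Real.rpow_nonneg le_rfl _) (Real.rpow_nonneg hA0 _)
      · calc ‖y i‖ ^ n = ‖y i‖ ^ r * ‖y i‖ ^ ((n : ℝ) - r) := by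
              rw [← Real.rpow_natCast, ← Real.rpow_add h0]; ring_nf
          _ ≤ _ := mul_le_mul_of_nonneg_left
              (Real.rpow_le_rpow h0.le (hle i) (by linarith)) (hnn i)
    refine le_trans (Finset.sum_le_sum fun i _ => h i) (le_of_eq ?_)
    rw [← Finset.sum_mul, ← hAr, ← Real.rpow_add_of_nonneg hA0 hr.le (by linarith),
      ← Real.rpow_natCast A n]
    ring_nf
  calc (∑ i, ‖y i‖ ^ n) ^ (1 / (n : ℝ)) ≤ (A ^ n) ^ (1 / (n : ℝ)) :=
        Real.rpow_le_rpow (Finset.sum_nonneg fun _ _ => by positivity) hsum (by positivity)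
    _ = A := by rw [one_div, Real.pow_rpow_inv_natCast hA0 (by exact_mod_cast hn0.ne')]

/-- The gap from a factorisation of the adjoint. -/
theorem adjoint_gap {X : Type u} [NormedAddCommGroup X] [NormedSpace ℝ X]
    {Z : Type*} [NormedAddCommGroup Z] [NormedSpace ℝ Z] {r Cr C δ K : ℝ}
    (hr : 0 < r) (hCr : 0 ≤ Cr) (hC : 0 ≤ C) (hcot : DualCotype X r Cr)
    {x : Fin k → X} (hx1 : ∀ i, ‖x i‖ ≤ 1)
    (hx : ∀ a : Fin k → ℝ, ∑ i, |a i| ≤ C * ‖∑ i, a i • x i‖)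
    (S : X →L[ℝ] X) (hS : ∀ i, ‖S (x i) - x i‖ ≤ δ) (hδ : 2 * C * δ ≤ 1)
    (hK : 1 ≤ K) (hZ : RadBound Z k K) (B : StrongDual ℝ X →L[ℝ] Z) (A : Z →L[ℝ] StrongDual ℝ X)
    (hAB : ∀ ψ, A (B ψ) = ψ.comp S) {D : ℕ} (hD : 0 < D)
    (hγ : ‖A‖ * ‖B‖ ≤ (2 : ℝ) ^ D * ‖S‖) :
    (k : ℝ) ^ (1 / r) ≤ 48 * C * Cr * K * D * ‖S‖ := by
  classical
  let T : (Fin k → ℝ) →ₗ[ℝ] X := Fintype.linearCombination ℝ x
  have hT : ∀ a, T a = ∑ i, a i • x i := fun a => by simp [T, Fintype.linearCombination_apply]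
  have hinj : Function.Injective T := by
    rw [injective_iff_map_eq_zero]
    intro a ha
    have h := hx a
    rw [← hT, ha, norm_zero, mul_zero] at h
    funext i
    have := le_antisymm h (Finset.sum_nonneg fun i _ => abs_nonneg (a i))
    rw [Finset.sum_eq_zero_iff_of_nonneg fun i _ => abs_nonneg _] at this
    exact abs_eq_zero.mp (this i (mem_univ i))
  have hex : ∀ e : Fin k → Bool, ∃ φ : StrongDual ℝ X, ‖φ‖ ≤ C ∧ ∀ i, φ (x i) = sgn (e i) := by
    intro e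
    let f0 : LinearMap.range T →ₗ[ℝ] ℝ :=
      (Fintype.linearCombination ℝ fun i => sgn (e i)) ∘ₗ
        (LinearEquiv.ofInjective T hinj).symm.toLinearMap
    have hf0 : ∀ a, f0 ⟨T a, LinearMap.mem_range_self T a⟩ = ∑ i, a i * sgn (e i) := by
      intro a
      have : (LinearEquiv.ofInjective T hinj).symm ⟨T a, LinearMap.mem_range_self T a⟩ = a := by
        rw [LinearEquiv.symm_apply_eq]; ext; simp
      simp [f0, this, Fintype.linearCombination_apply]
    have hb : ∀ y, ‖f0 y‖ ≤ C * ‖y‖ := by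
      rintro ⟨_, a, rfl⟩
      rw [hf0, Real.norm_eq_abs]
      refine le_trans (Finset.abs_sum_le_sum_abs _ _) ?_
      simp only [abs_mul, abs_sgn, mul_one]
      simpa [hT] using hx a
    obtain ⟨φ, hφ, hn⟩ := exists_extension_norm_eq (LinearMap.range T) (f0.mkContinuous C hb)
    refine ⟨φ, hn ▸ LinearMap.mkContinuous_norm_le _ hC _, fun i => ?_⟩
    have h1 : T (Pi.single i 1) = x i := by simp [hT, Pi.single_apply]
    rw [← h1]
    have h2 := hφ ⟨T (Pi.single i 1), LinearMap.mem_range_self T _⟩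
    simp only [LinearMap.mkContinuous_apply] at h2
    rw [h2, hf0]; simp [Pi.single_apply]
  choose φ hφn hφx using hex
  let v : Fin k → StrongDual ℝ X := fun i =>
    ((2 : ℝ) ^ k)⁻¹ • ∑ e : Fin k → Bool, sgn (e i) • (φ e).comp S
  have h2k : (0 : ℝ) < (2 : ℝ) ^ k := by positivity
  have hlow : ∀ i, (1 : ℝ) / 2 ≤ ‖v i‖ := by
    intro i
    have hval : v i (x i) = ((2 : ℝ) ^ k)⁻¹ *
        ∑ e, sgn (e i) * (sgn (e i) + φ e (S (x i) - x i)) := by
      simp only [v, _root_.sum_apply, smul_apply, ContinuousLinearMap.comp_apply, smul_eq_mul,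
        map_sub, hφx]
      congr 1; exact Finset.sum_congr rfl fun e _ => by ring
    have hterm : ∀ e : Fin k → Bool,
        (1 : ℝ) / 2 ≤ sgn (e i) * (sgn (e i) + φ e (S (x i) - x i)) := by
      intro e
      have h1 : |φ e (S (x i) - x i)| ≤ C * δ :=
        le_trans ((φ e).le_opNorm _) (mul_le_mul (hφn e) (hS i) (norm_nonneg _) hC)
      have h2 : |sgn (e i) * φ e (S (x i) - x i)| ≤ C * δ := by rwa [abs_mul, abs_sgn, one_mul]
      rw [mul_add, sgn_mul_self]; linarith [neg_le_of_abs_le h2]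
    have hge : (1 : ℝ) / 2 ≤ v i (x i) := by
      rw [hval, le_inv_mul_iff₀ h2k]
      have := Finset.card_nsmul_le_sum (univ : Finset (Fin k → Bool)) _ _ fun e _ => hterm e
      simpa using this
    exact le_trans hge (le_trans (le_abs_self _) ((v i).le_opNorm _ |>.trans
      (mul_le_of_le_one_right (norm_nonneg _) (hx1 i))))
  -- the adjoint has the norm of `S`
  have hnorm : ‖A.comp B‖ = ‖S‖ := by
    refine le_antisymm (ContinuousLinearMap.opNorm_le_bound _ (norm_nonneg _) fun ψ => ?_) ?_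
    · rw [ContinuousLinearMap.comp_apply, hAB, mul_comm]; exact ψ.opNorm_comp_le S
    · refine ContinuousLinearMap.opNorm_le_bound _ (ContinuousLinearMap.opNorm_nonneg _) fun y => ?_
      obtain ⟨ξ, h1, h2⟩ := exists_dual_vector'' ℝ (S y)
      have h3 : ‖S y‖ = (A.comp B) ξ y := by
        rw [ContinuousLinearMap.comp_apply, hAB]; simpa using h2.symm
      rw [h3]
      refine le_trans (le_abs_self _) (le_trans (((A.comp B) ξ).le_opNorm y) ?_)
      refine mul_le_mul_of_nonneg_right ?_ (norm_nonneg y)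
      exact le_trans ((A.comp B).le_opNorm ξ) (mul_le_of_le_one_right (norm_nonneg _) h1)
  set b : ℝ := 24 * K * D * ‖S‖ with hb
  have hfb := factor_bound (k := k) hK hZ B A hD (by rw [hnorm]; exact hγ) φ
  rw [hnorm] at hfb
  have hφ2 : l2n φ ≤ Real.sqrt ((2 : ℝ) ^ k) * C := by
    refine l2n_le_of_sq _ (by positivity) ?_
    rw [mul_pow, Real.sq_sqrt h2k.le]
    refine le_trans (Finset.sum_le_card_nsmul _ _ (C ^ 2) fun e _ => ?_) (by simp)
    exact pow_le_pow_left₀ (norm_nonneg _) (hφn e) 2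
  have hG : (fun σ : Fin k → Bool => ∑ i, sgn (σ i) • v i)
      = vmult degOne fun e => A (B (φ e)) := by
    funext σ
    simp only [vmult_degOne, hAB, v]
  have hup : Real.sqrt (((2 : ℝ) ^ k)⁻¹ * ∑ σ : Fin k → Bool, ‖∑ i, sgn (σ i) • v i‖ ^ 2)
      ≤ C * b := by
    rw [Real.sqrt_mul (by positivity), Real.sqrt_inv, inv_mul_le_iff₀ (Real.sqrt_pos.mpr h2k)]
    change l2n (fun σ : Fin k → Bool => ∑ i, sgn (σ i) • v i) ≤ _
    rw [hG]
    refine le_trans hfb (le_trans (mul_le_mul_of_nonneg_left hφ2 (by positivity)) (le_of_eq ?_))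
    rw [hb]; ring
  have hk : (k : ℝ) ^ (1 / r) * (1 / 2) ≤ (∑ i, ‖v i‖ ^ r) ^ (1 / r) := by
    calc (k : ℝ) ^ (1 / r) * (1 / 2) = ((k : ℝ) * (1 / 2 : ℝ) ^ r) ^ (1 / r) := by
          rw [Real.mul_rpow (Nat.cast_nonneg k) (by positivity), one_div r,
            Real.rpow_rpow_inv (by norm_num) hr.ne']
      _ ≤ (∑ i, ‖v i‖ ^ r) ^ (1 / r) := by
          refine Real.rpow_le_rpow (by positivity) ?_ (by positivity)
          have := Finset.card_nsmul_le_sum (univ : Finset (Fin k)) (fun i => ‖v i‖ ^ r)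
            ((1 / 2 : ℝ) ^ r) fun i _ => Real.rpow_le_rpow (by norm_num) (hlow i) hr.le
          simpa using this
  have := le_trans (le_trans hk (hcot k v)) (mul_le_mul_of_nonneg_left hup hCr)
  rw [hb] at this
  linarith

/-- The adjoint of an operator through `ℓ₁^M` factors through a sup-norm space. -/
theorem sum_adjoint {X : Type u} [NormedAddCommGroup X] [NormedSpace ℝ X] {ι : Type u} [Fintype ι]
    (V : X →L[ℝ] PiLp 1 fun _ : ι => ℝ) (W : (PiLp 1 fun _ : ι => ℝ) →L[ℝ] X) :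
    ∃ (B : StrongDual ℝ X →L[ℝ] (ι → ℝ)) (A : (ι → ℝ) →L[ℝ] StrongDual ℝ X),
      (∀ ψ, A (B ψ) = ψ.comp (W.comp V)) ∧ ‖A‖ * ‖B‖ ≤ ‖V‖ * ‖W‖ := by
  classical
  have hn : ∀ z : PiLp 1 fun _ : ι => ℝ, ‖z‖ = ∑ l, |z l| := fun z => by
    simp [PiLp.norm_eq_of_nat 1 (by simp : (1 : ENNReal) = ((1 : ℕ) : ENNReal))]
  let e : ι → PiLp 1 fun _ : ι => ℝ := fun l => WithLp.toLp 1 (Pi.single l 1)
  have he : ∀ l, ‖e l‖ = 1 := fun l => by
    simp [hn, e, Pi.single_apply, apply_ite abs]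
  have hdec : ∀ z : PiLp 1 fun _ : ι => ℝ, z = ∑ l, z l • e l := fun z => by
    ext j; simp [e, WithLp.ofLp_sum, Finset.sum_apply, Pi.single_apply]
  let B₀ : StrongDual ℝ X →ₗ[ℝ] (ι → ℝ) :=
    { toFun := fun ψ l => ψ (W (e l))
      map_add' := fun a b => by funext l; simp
      map_smul' := fun c a => by funext l; simp }
  have hB : ∀ ψ, ‖B₀ ψ‖ ≤ ‖W‖ * ‖ψ‖ := fun ψ =>
    (pi_norm_le_iff_of_nonneg (by positivity)).mpr fun l => by
      refine le_trans (ψ.le_opNorm _) ?_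
      rw [mul_comm]
      exact mul_le_mul_of_nonneg_right (le_trans (W.le_opNorm _) (by rw [he, mul_one]))
        (norm_nonneg ψ)
  let coord : ι → StrongDual ℝ X := fun l =>
    (PiLp.proj 1 (fun _ : ι => ℝ) l).comp V
  let A₀ : (ι → ℝ) →ₗ[ℝ] StrongDual ℝ X := Fintype.linearCombination ℝ coord
  have hA : ∀ w, ‖A₀ w‖ ≤ ‖V‖ * ‖w‖ := by
    intro w
    refine ContinuousLinearMap.opNorm_le_bound _ (by positivity) fun y => ?_
    simp only [A₀, Fintype.linearCombination_apply, _root_.sum_apply, smul_apply, smul_eq_mul,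
      coord, ContinuousLinearMap.comp_apply, PiLp.proj_apply, Real.norm_eq_abs]
    refine le_trans (Finset.abs_sum_le_sum_abs _ _) ?_
    refine le_trans (Finset.sum_le_sum (g := fun l => ‖w‖ * |V y l|) fun l _ => ?_) ?_
    · rw [abs_mul]
      exact mul_le_mul_of_nonneg_right ((Real.norm_eq_abs _).symm.trans_le (norm_le_pi_norm w l))
        (abs_nonneg _)
    · rw [← Finset.mul_sum, ← hn]
      calc ‖w‖ * ‖V y‖ ≤ ‖w‖ * (‖V‖ * ‖y‖) :=
            mul_le_mul_of_nonneg_left (V.le_opNorm y) (norm_nonneg w)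
        _ = _ := by ring
  refine ⟨B₀.mkContinuous _ hB, A₀.mkContinuous _ hA, fun ψ => ?_, ?_⟩
  · ext y
    simp only [LinearMap.mkContinuous_apply, A₀, B₀, coord, Fintype.linearCombination_apply,
      _root_.sum_apply, smul_apply, ContinuousLinearMap.comp_apply, PiLp.proj_apply,
      LinearMap.coe_mk, AddHom.coe_mk, smul_eq_mul]
    conv_rhs => rw [hdec (V y)]
    simp only [map_sum, map_smul, smul_eq_mul]
    exact Finset.sum_congr rfl fun l _ => by ring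
  · exact mul_le_mul (LinearMap.mkContinuous_norm_le _ (norm_nonneg _) _)
      (LinearMap.mkContinuous_norm_le _ (norm_nonneg _) _) (ContinuousLinearMap.opNorm_nonneg _)
      (norm_nonneg _)

/-- Gap for operators through `ℓ₁^M`, using only the cotype of `X*`. -/
theorem sum_gap {X : Type u} [NormedAddCommGroup X] [NormedSpace ℝ X] {r Cr : ℝ}
    (hr : 0 < r) (hCr : 1 ≤ Cr) (hcot : DualCotype X r Cr) :
    ∃ c : ℝ, 0 ≤ c ∧ ∀ (C δ : ℝ), 0 ≤ C → 2 * C * δ ≤ 1 → ∀ (k : ℕ) (x : Fin k → X),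
      (∀ i, ‖x i‖ ≤ 1) → (∀ a : Fin k → ℝ, ∑ i, |a i| ≤ C * ‖∑ i, a i • x i‖) →
      ∀ (ι : Type u) [Fintype ι] (V : X →L[ℝ] PiLp 1 fun _ : ι => ℝ)
        (W : (PiLp 1 fun _ : ι => ℝ) →L[ℝ] X) (D : ℕ), 0 < D →
        ‖W‖ * ‖V‖ ≤ (2 : ℝ) ^ D * ‖W.comp V‖ → (∀ i, ‖W (V (x i)) - x i‖ ≤ δ) →
        (k : ℝ) ^ (1 / r) ≤ c * C * D * ‖W.comp V‖ := by
  set q := ⌈r⌉₊ with hq
  have hq1 : 1 ≤ q := Nat.one_le_iff_ne_zero.mpr (by simp [hq, hr])
  obtain ⟨E0, hE0⟩ := pow_unbounded_of_one_lt (((q + 1) * Cr + 4) ^ 2) (one_lt_two (α := ℝ))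
  set K : ℝ := 2 * ((2 * q).factorial : ℝ) with hKdef
  have hK1 : 1 ≤ K := by
    have : (1 : ℝ) ≤ ((2 * q).factorial : ℝ) := by exact_mod_cast (2 * q).factorial_pos
    linarith
  refine ⟨48 * Cr * K * (E0 + 1), by positivity, ?_⟩
  intro C δ hC hδ k x hx1 hx ι hι V W D hD hγ hS
  obtain ⟨B, A, hAB, hn⟩ := sum_adjoint V W
  obtain ⟨hf, B', A', hcomp, hn'⟩ := sup_factor hq1 hCr (primalCotype_dual hr hcot) B A
  have h := adjoint_gap (k := k) (D := D + E0) hr (by linarith) hC hcot hx1 hx (W.comp V)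
    (fun i => hS i) hδ hK1 (radBound_lp q hq1 ι) B' A'
    (fun ψ => (DFunLike.congr_fun hcomp ψ).trans (hAB ψ)) (by omega) (by
      rw [pow_add, mul_comm ((2 : ℝ) ^ D), mul_assoc]
      refine le_trans hn' (mul_le_mul hE0.le (le_trans hn ?_) (by positivity) (by positivity))
      rw [mul_comm]; exact hγ)
  have h1 : ((D + E0 : ℕ) : ℝ) ≤ D * (E0 + 1) := by
    have hD1 : (1 : ℝ) ≤ D := by exact_mod_cast hD
    push_cast; nlinarith [(Nat.cast_nonneg E0 : (0 : ℝ) ≤ E0)]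
  refine le_trans h ?_
  calc 48 * C * Cr * K * ((D + E0 : ℕ) : ℝ) * ‖W.comp V‖
      ≤ 48 * C * Cr * K * (D * (E0 + 1)) * ‖W.comp V‖ :=
        mul_le_mul_of_nonneg_right (mul_le_mul_of_nonneg_left h1 (by positivity)) (norm_nonneg _)
    _ = _ := by ring

end Vale.Agent.P111
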