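import Vale.Agent.P111.Trig
import Vale.Agent.P111.Cube

/-! If `X` contains `ℓ₁ᵏ` and `X*` has cotype `r`, then every finite rank operator of norm `λ`
almost fixing the `k` basis vectors has rank `N` with `k^(1/r) ≲ λ log N`. -/

namespace Vale.Agent.P111

open Finset

/-- An Auerbach type basis: coordinates are bounded by the norm. -/
theorem exists_bounded_basis (W : Type*) [NormedAddCommGroup W] [NormedSpace ℝ W]
    [FiniteDimensional ℝ W] :
    ∃ w : Module.Basis (Fin (Module.finrank ℝ W)) ℝ W,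
      (∀ l, ‖w l‖ ≤ 1) ∧ ∀ y l, |w.repr y l| ≤ ‖y‖ := by
  classical
  set N := Module.finrank ℝ W with hN
  let b : Module.Basis (Fin N) ℝ W := Module.finBasis ℝ W
  have hdet : Continuous fun w : Fin N → W => b.det w := by
    simp_rw [Module.Basis.det_apply]
    refine Continuous.matrix_det (continuous_pi fun i => continuous_pi fun j => ?_)
    simp only [Module.Basis.toMatrix_apply]
    exact ((b.coord i).continuous_of_finiteDimensional).comp (continuous_apply j)
  have : ProperSpace W := FiniteDimensional.proper ℝ W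
  have hcomp : IsCompact (Metric.closedBall (0 : Fin N → W) 1) := isCompact_closedBall _ _
  obtain ⟨w, hw, hmax⟩ := hcomp.exists_isMaxOn ⟨0, by simp⟩
    (hdet.abs.continuousOn)
  have hwn : ∀ l, ‖w l‖ ≤ 1 := fun l =>
    le_trans (norm_le_pi_norm w l) (by simpa using hw)
  have hmax' : ∀ v : Fin N → W, (∀ l, ‖v l‖ ≤ 1) → |b.det v| ≤ |b.det w| := fun v hv =>
    hmax (by simpa [pi_norm_le_iff_of_nonneg] using hv)
  have hne : b.det w ≠ 0 := by
    let u : Fin N → ℝ := fun l => ‖b l‖⁻¹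
    have hu : ∀ l, ‖u l • b l‖ ≤ 1 := by
      intro l; simp [u, norm_smul, inv_mul_cancel₀ (norm_ne_zero_iff.mpr (b.ne_zero l))]
    have h := hmax' (fun l => u l • b l) hu
    rw [AlternatingMap.map_smul_univ, b.det_self, smul_eq_mul, mul_one] at h
    intro h0; rw [h0, abs_zero, abs_nonpos_iff, Finset.prod_eq_zero_iff] at h
    obtain ⟨l, -, hl⟩ := h
    simp [u, b.ne_zero l] at hl
  have hb := (Module.Basis.is_basis_iff_det b (v := w)).mpr (isUnit_iff_ne_zero.mpr hne)
  let B : Module.Basis (Fin N) ℝ W := Module.Basis.mk hb.1 hb.2.ge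
  refine ⟨B, fun l => by simpa [B] using hwn l, fun y l => ?_⟩
  have key : b.det (Function.update w l y) = B.repr y l * b.det w := by
    conv_lhs => rw [← B.sum_repr y]
    rw [AlternatingMap.map_update_sum]
    rw [Finset.sum_eq_single l]
    · rw [AlternatingMap.map_update_smul]; simp [B]
    · intro j _ hj
      rw [AlternatingMap.map_update_smul]
      have h0 := b.det.map_eq_zero_of_eq (Function.update w l (w j)) (i := l) (j := j)
        (by simp [Function.update_of_ne hj]) (Ne.symm hj)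
      simp [B, h0]
    · simp
  rcases eq_or_ne y 0 with hy | hy
  · simp [hy]
  have hy' : 0 < ‖y‖ := norm_pos_iff.mpr hy
  have h := hmax' (Function.update w l (‖y‖⁻¹ • y)) (fun j => by
    rcases eq_or_ne j l with rfl | hj
    · simp [norm_smul, inv_mul_cancel₀ hy'.ne']
    · simpa [Function.update_of_ne hj] using hwn j)
  rw [AlternatingMap.map_update_smul, key, smul_eq_mul, abs_mul, abs_mul,
    abs_of_pos (inv_pos.mpr hy'), ← mul_assoc] at h
  have h2 : ‖y‖⁻¹ * |B.repr y l| ≤ 1 :=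
    le_of_mul_le_mul_right (by rwa [one_mul]) (abs_pos.mpr hne)
  calc |B.repr y l| = ‖y‖ * (‖y‖⁻¹ * |B.repr y l|) := by
        rw [← mul_assoc, mul_inv_cancel₀ hy'.ne', one_mul]
    _ ≤ ‖y‖ * 1 := mul_le_mul_of_nonneg_left h2 hy'.le
    _ = ‖y‖ := mul_one _

/-- The linear part (Rademacher projection) of a function with values in an `N`-dimensional
space of the form `∑ aₗ ψₗ` has norm `O(log N)` times the sup norm. -/
theorem linear_part_bound {E : Type*} [NormedAddCommGroup E] [NormedSpace ℝ E] {k N : ℕ}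
    (g : (Fin k → Bool) → E) (a : Fin N → (Fin k → Bool) → ℝ) (ψ : Fin N → E)
    (hg : ∀ x, g x = ∑ l, a l x • ψ l) (G A L : ℝ) (hG : ∀ x, ‖g x‖ ≤ G)
    (hA : ∀ l x, |a l x| ≤ A) (hL : ∀ l, ‖ψ l‖ ≤ L) (hA0 : 0 ≤ A) (hL0 : 0 ≤ L)
    (hAL : A * L ≤ G) :
    Real.sqrt (((2 : ℝ) ^ k)⁻¹ * ∑ x : Fin k → Bool,
      ‖∑ l, (∑ i, fhat (a l) {i} * sgn (x i)) • ψ l‖ ^ 2)
      ≤ 8 * ((Nat.log 2 N : ℝ) + 1) * G := by
  classical
  have hG0 : 0 ≤ G := le_trans (norm_nonneg _) (hG fun _ => true)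
  set D := Nat.log 2 N + 1 with hD
  have hNlt : (N : ℝ) ≤ (2 : ℝ) ^ D := by
    have := Nat.lt_pow_succ_log_self (b := 2) one_lt_two N
    rw [hD]; exact_mod_cast this.le
  obtain ⟨m, ρ, c, hρ, hc, hid⟩ := exists_deriv_functional D (by omega)
  set main : ℕ → ℝ := fun n => 2 * ∑ j ∈ range m, c j * (ρ j / 2) ^ n with hmain
  set b : ℕ → ℝ := fun n => main n - if n = 1 then 1 else 0 with hbdef
  set β : ℝ := 2 * (2 * D) * (1 / 2) ^ (D + 1) with hβ
  have hb : ∀ n, |b n| ≤ β := by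
    intro n
    have hmain' : main n = 2 * (1 / 2) ^ n * ∑ j ∈ range m, c j * ρ j ^ n := by
      rw [hmain]; simp only [div_pow, Finset.mul_sum]
      exact Finset.sum_congr rfl fun j _ => by ring
    rcases le_or_gt n D with hn | hn
    · have : b n = 0 := by
        rw [hbdef]; simp only; rw [hmain', hid n hn]
        split_ifs with h
        · subst h; norm_num
        · simp
      rw [this, abs_zero]; positivity
    · have h1 : b n = main n := by rw [hbdef]; simp only; rw [if_neg (by omega), sub_zero]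
      rw [h1, hmain', abs_mul, abs_of_nonneg (show (0 : ℝ) ≤ 2 * (1 / 2) ^ n by positivity)]
      have h2 : |∑ j ∈ range m, c j * ρ j ^ n| ≤ 2 * D :=
        le_trans (Finset.abs_sum_le_sum_abs _ _) (le_trans (Finset.sum_le_sum fun j _ => by
          rw [abs_mul, abs_pow]
          exact mul_le_of_le_one_right (abs_nonneg _) (pow_le_one₀ (abs_nonneg _) (hρ j))) hc)
      have h3 : ((1 : ℝ) / 2) ^ n ≤ (1 / 2) ^ (D + 1) :=
        pow_le_pow_of_le_one (by norm_num) (by norm_num) (by omega)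
      calc 2 * (1 / 2) ^ n * |∑ j ∈ range m, c j * ρ j ^ n|
          ≤ 2 * (1 / 2) ^ (D + 1) * (2 * D) := by
            exact mul_le_mul (by linarith) h2 (abs_nonneg _) (by positivity)
        _ = β := by rw [hβ]; ring
  have hsplit : ∀ x, ∑ l, (∑ i, fhat (a l) {i} * sgn (x i)) • ψ l
      = (2 : ℝ) • ∑ j ∈ range m, c j • (((2 : ℝ) ^ k)⁻¹ • ∑ y, rw' (ρ j / 2) x y • g y)
        - ∑ l, mult b (a l) x • ψ l := by
    intro x
    have h1 : ∀ l, ∑ i, fhat (a l) {i} * sgn (x i)
        = mult main (a l) x - mult b (a l) x := by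
      intro l
      rw [← mult_deg_one]
      simp only [mult, ← Finset.sum_sub_distrib, hbdef]
      exact Finset.sum_congr rfl fun S _ => by ring
    have h2 : ∀ l, mult main (a l) x
        = 2 * ∑ j ∈ range m, c j * (((2 : ℝ) ^ k)⁻¹ * ∑ y, rw' (ρ j / 2) x y * a l y) := by
      intro l
      simp_rw [← mult_pow]
      simp only [mult, hmain, Finset.mul_sum, Finset.sum_mul]
      rw [Finset.sum_comm]
      exact Finset.sum_congr rfl fun j _ => Finset.sum_congr rfl fun S _ => by ring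
    simp_rw [h1, sub_smul, Finset.sum_sub_distrib, h2, hg]
    congr 1
    simp only [Finset.smul_sum, smul_smul, Finset.mul_sum, Finset.sum_smul]
    rw [Finset.sum_comm]
    refine Finset.sum_congr rfl fun j _ => ?_
    rw [Finset.sum_comm]
  have h2k : (0 : ℝ) < (2 : ℝ) ^ k := by positivity
  have hfirst : ∀ x, ‖(2 : ℝ) • ∑ j ∈ range m,
      c j • (((2 : ℝ) ^ k)⁻¹ • ∑ y, rw' (ρ j / 2) x y • g y)‖ ≤ 4 * D * G := by
    intro x
    have hj : ∀ j, ‖((2 : ℝ) ^ k)⁻¹ • ∑ y, rw' (ρ j / 2) x y • g y‖ ≤ G := by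
      intro j
      have ht : |ρ j / 2| ≤ 1 := by rw [abs_div, abs_two]; linarith [hρ j]
      rw [norm_smul, Real.norm_eq_abs, abs_of_pos (inv_pos.mpr h2k), inv_mul_le_iff₀ h2k,
        ← rw'_sum (ρ j / 2) x, Finset.sum_mul]
      refine le_trans (norm_sum_le _ _) (Finset.sum_le_sum fun y _ => ?_)
      rw [norm_smul, Real.norm_eq_abs, abs_of_nonneg (rw'_nonneg _ ht x y)]
      exact mul_le_mul_of_nonneg_left (hG y) (rw'_nonneg _ ht x y)
    rw [norm_smul, Real.norm_two]
    have : ‖∑ j ∈ range m, c j • (((2 : ℝ) ^ k)⁻¹ • ∑ y, rw' (ρ j / 2) x y • g y)‖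
        ≤ 2 * D * G :=
      le_trans (norm_sum_le _ _) (le_trans (Finset.sum_le_sum (g := fun j => |c j| * G) fun j _ => by
        rw [norm_smul, Real.norm_eq_abs]
        exact mul_le_mul_of_nonneg_left (hj j) (abs_nonneg (c j)))
        (by rw [← Finset.sum_mul]; exact mul_le_mul_of_nonneg_right hc hG0))
    linarith
  have hsecond : ∑ x : Fin k → Bool, ‖∑ l, mult b (a l) x • ψ l‖ ^ 2
      ≤ (2 : ℝ) ^ k * (2 * D * G) ^ 2 := by
    calc ∑ x : Fin k → Bool, ‖∑ l, mult b (a l) x • ψ l‖ ^ 2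
        ≤ ∑ x : Fin k → Bool, (N : ℝ) * L ^ 2 * ∑ l, mult b (a l) x ^ 2 := by
          refine Finset.sum_le_sum fun x _ => ?_
          have h1 : ‖∑ l, mult b (a l) x • ψ l‖ ≤ ∑ l, |mult b (a l) x| * L :=
            le_trans (norm_sum_le _ _) (Finset.sum_le_sum fun l _ => by
              rw [norm_smul, Real.norm_eq_abs]
              exact mul_le_mul_of_nonneg_left (hL l) (abs_nonneg _))
          have h2 : (∑ l, |mult b (a l) x| * L) ^ 2
              ≤ (N : ℝ) * ∑ l, (|mult b (a l) x| * L) ^ 2 := by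
            simpa using (sq_sum_le_card_mul_sum_sq (s := (univ : Finset (Fin N)))
              (f := fun l => |mult b (a l) x| * L))
          refine le_trans (pow_le_pow_left₀ (norm_nonneg _) h1 2) (le_trans h2 (le_of_eq ?_))
          simp only [mul_pow, sq_abs, ← Finset.sum_mul]; ring
      _ = (N : ℝ) * L ^ 2 * ∑ l, ∑ x : Fin k → Bool, mult b (a l) x ^ 2 := by
          rw [← Finset.mul_sum, Finset.sum_comm]
      _ ≤ (N : ℝ) * L ^ 2 * ∑ _l : Fin N, β ^ 2 * ((2 : ℝ) ^ k * A ^ 2) := by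
          refine mul_le_mul_of_nonneg_left (Finset.sum_le_sum fun l _ => ?_) (by positivity)
          refine le_trans (mult_sq_le b β hb (a l)) (mul_le_mul_of_nonneg_left ?_ (sq_nonneg _))
          refine le_trans (Finset.sum_le_card_nsmul _ _ (A ^ 2) fun x _ => ?_) (le_of_eq ?_)
          · rw [← sq_abs]; exact pow_le_pow_left₀ (abs_nonneg _) (hA l x) 2
          · simp
      _ = (2 : ℝ) ^ k * ((N : ℝ) * β * (A * L)) ^ 2 := by simp; ring
      _ ≤ (2 : ℝ) ^ k * (2 * D * G) ^ 2 := by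
          have hNβ : (N : ℝ) * β ≤ 2 * D := by
            calc (N : ℝ) * β ≤ (2 : ℝ) ^ D * β :=
                  mul_le_mul_of_nonneg_right hNlt (by positivity)
              _ = 2 * D := by rw [hβ, one_div, inv_pow, pow_succ (2 : ℝ) D]; field_simp
          refine mul_le_mul_of_nonneg_left (pow_le_pow_left₀ (by positivity) ?_ 2) h2k.le
          exact mul_le_mul hNβ hAL (by positivity) (by positivity)
  have htot : ((2 : ℝ) ^ k)⁻¹ * ∑ x : Fin k → Bool,
      ‖∑ l, (∑ i, fhat (a l) {i} * sgn (x i)) • ψ l‖ ^ 2 ≤ (8 * D * G) ^ 2 := by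
    rw [inv_mul_le_iff₀ h2k]
    calc ∑ x : Fin k → Bool, ‖∑ l, (∑ i, fhat (a l) {i} * sgn (x i)) • ψ l‖ ^ 2
        ≤ ∑ x : Fin k → Bool, (2 * (4 * D * G) ^ 2 + 2 * ‖∑ l, mult b (a l) x • ψ l‖ ^ 2) := by
          refine Finset.sum_le_sum fun x _ => ?_
          rw [hsplit x]
          refine le_trans (pow_le_pow_left₀ (norm_nonneg _) (norm_sub_le _ _) 2) ?_
          have h1 := pow_le_pow_left₀ (norm_nonneg _) (hfirst x) 2
          nlinarith [sq_nonneg (‖(2 : ℝ) • ∑ j ∈ range m,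
            c j • (((2 : ℝ) ^ k)⁻¹ • ∑ y, rw' (ρ j / 2) x y • g y)‖
            - ‖∑ l, mult b (a l) x • ψ l‖)]
      _ ≤ (2 : ℝ) ^ k * (8 * D * G) ^ 2 := by
          rw [Finset.sum_add_distrib, Finset.sum_const, ← Finset.mul_sum]
          simp only [Finset.card_univ, Fintype.card_fun, Fintype.card_bool,
            Fintype.card_fin, nsmul_eq_mul]
          push_cast
          nlinarith [hsecond, mul_nonneg h2k.le (sq_nonneg ((D : ℝ) * G))]
  calc Real.sqrt _ ≤ Real.sqrt ((8 * D * G) ^ 2) := Real.sqrt_le_sqrt htot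
    _ = 8 * D * G := Real.sqrt_sq (by positivity)
    _ = _ := by rw [hD]; push_cast; ring

/-- The finite rank obstruction. -/
theorem rank_bound {X : Type*} [NormedAddCommGroup X] [NormedSpace ℝ X] {r Cr C δ : ℝ}
    (hr : 0 < r) (hCr : 0 ≤ Cr) (hC : 0 ≤ C) (hcot : DualCotype X r Cr)
    {k : ℕ} (x : Fin k → X) (hx1 : ∀ i, ‖x i‖ ≤ 1) (hx : ∀ a : Fin k → ℝ, ∑ i, |a i| ≤ C * ‖∑ i, a i • x i‖)
    (S : X →L[ℝ] X) [FiniteDimensional ℝ (LinearMap.range (S : X →ₗ[ℝ] X))]
    (hS : ∀ i, ‖S (x i) - x i‖ ≤ δ) (hδ : 2 * C * δ ≤ 1) :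
    (k : ℝ) ^ (1 / r) ≤ 16 * C * Cr * ‖S‖ *
      ((Nat.log 2 (Module.finrank ℝ (LinearMap.range (S : X →ₗ[ℝ] X))) : ℝ) + 1) := by
  classical
  set W := LinearMap.range (S : X →ₗ[ℝ] X)
  set N := Module.finrank ℝ W with hN
  obtain ⟨w, hw, hrep⟩ := exists_bounded_basis W
  let T : (Fin k → ℝ) →ₗ[ℝ] X := Fintype.linearCombination ℝ x
  have hT : ∀ a, T a = ∑ i, a i • x i := fun a => by simp [T, Fintype.linearCombination_apply]
  have hinj : Function.Injective T := by
    rw [injective_iff_map_eq_zero]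
    intro a ha
    have h := hx a
    rw [← hT, ha, norm_zero, mul_zero] at h
    funext i
    have := le_antisymm h (Finset.sum_nonneg fun i _ => abs_nonneg (a i))
    rw [Finset.sum_eq_zero_iff_of_nonneg fun i _ => abs_nonneg _] at this
    exact abs_eq_zero.mp (this i (mem_univ i))
  have hex : ∀ e : Fin k → Bool, ∃ φ : StrongDual ℝ X, ‖φ‖ ≤ C ∧ ∀ i, φ (x i) = sgn (e i) := by
    intro e
    let f0 : LinearMap.range T →ₗ[ℝ] ℝ :=
      (Fintype.linearCombination ℝ fun i => sgn (e i)) ∘ₗ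
        (LinearEquiv.ofInjective T hinj).symm.toLinearMap
    have hf0 : ∀ a, f0 ⟨T a, LinearMap.mem_range_self T a⟩ = ∑ i, a i * sgn (e i) := by
      intro a
      have : (LinearEquiv.ofInjective T hinj).symm ⟨T a, LinearMap.mem_range_self T a⟩ = a := by
        rw [LinearEquiv.symm_apply_eq]; ext; simp
      simp [f0, this, Fintype.linearCombination_apply]
    have hb : ∀ y, ‖f0 y‖ ≤ C * ‖y‖ := by
      rintro ⟨_, a, rfl⟩
      rw [hf0, Real.norm_eq_abs]
      refine le_trans (Finset.abs_sum_le_sum_abs _ _) ?_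
      simp only [abs_mul, abs_sgn, mul_one]
      simpa [hT] using hx a
    obtain ⟨φ, hφ, hn⟩ := exists_extension_norm_eq (LinearMap.range T) (f0.mkContinuous C hb)
    refine ⟨φ, hn ▸ LinearMap.mkContinuous_norm_le _ hC _, fun i => ?_⟩
    have h1 : T (Pi.single i 1) = x i := by simp [hT, Pi.single_apply]
    rw [← h1]
    have h2 := hφ ⟨T (Pi.single i 1), LinearMap.mem_range_self T _⟩
    simp only [LinearMap.mkContinuous_apply] at h2
    rw [h2, hf0]; simp [Pi.single_apply]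
  choose φ hφn hφx using hex
  let ψ : Fin N → StrongDual ℝ X := fun l =>
    LinearMap.mkContinuous ((w.coord l) ∘ₗ (S : X →ₗ[ℝ] X).rangeRestrict) ‖S‖ (fun y => by
      refine le_trans (hrep _ l) ?_
      exact S.le_opNorm y)
  have hψ : ∀ l, ‖ψ l‖ ≤ ‖S‖ := fun l => LinearMap.mkContinuous_norm_le _ (norm_nonneg S) _
  let a : Fin N → (Fin k → Bool) → ℝ := fun l e => φ e (w l : X)
  let g : (Fin k → Bool) → StrongDual ℝ X := fun e => (φ e).comp S
  have hg : ∀ e, g e = ∑ l, a l e • ψ l := by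
    intro e; ext y
    have h1 : (S y : X) = ∑ l, w.repr ((S : X →ₗ[ℝ] X).rangeRestrict y) l • (w l : X) := by
      have := congrArg (Submodule.subtype W) (w.sum_repr ((S : X →ₗ[ℝ] X).rangeRestrict y))
      rw [map_sum] at this
      simp only [map_smul, Submodule.subtype_apply] at this
      exact this.symm
    simp only [g, a, ψ, ContinuousLinearMap.comp_apply, _root_.sum_apply, smul_apply,
      LinearMap.mkContinuous_apply, LinearMap.comp_apply, Module.Basis.coord_apply, smul_eq_mul]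
    conv_lhs => rw [h1]
    simp [map_sum, mul_comm]
    rfl
  have hG : ∀ e, ‖g e‖ ≤ C * ‖S‖ := fun e =>
    le_trans ((φ e).opNorm_comp_le S) (mul_le_mul_of_nonneg_right (hφn e) (norm_nonneg S))
  have hA : ∀ l e, |a l e| ≤ C := fun l e => by
    calc |a l e| ≤ ‖φ e‖ * ‖(w l : X)‖ := (φ e).le_opNorm _
      _ ≤ C * 1 := mul_le_mul (hφn e) (hw l) (norm_nonneg _) hC
      _ = C := mul_one C
  let v : Fin k → StrongDual ℝ X := fun i => ((2 : ℝ) ^ k)⁻¹ • ∑ e, sgn (e i) • g e
  have hv : ∀ σ : Fin k → Bool, ∑ i, sgn (σ i) • v i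
      = ∑ l, (∑ i, fhat (a l) {i} * sgn (σ i)) • ψ l := by
    intro σ
    simp only [v, hg, fhat, walsh, Finset.prod_singleton, Finset.smul_sum, smul_smul,
      Finset.mul_sum, Finset.sum_mul, Finset.sum_smul]
    conv_rhs => rw [Finset.sum_comm]
    refine Finset.sum_congr rfl fun i _ => ?_
    rw [Finset.sum_comm]
    exact Finset.sum_congr rfl fun l _ => Finset.sum_congr rfl fun e _ => by congr 1; ring
  have h2k : (0 : ℝ) < (2 : ℝ) ^ k := by positivity
  have hlow : ∀ i, (1 : ℝ) / 2 ≤ ‖v i‖ * ‖x i‖ := by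
    intro i
    have hval : v i (x i) = ((2 : ℝ) ^ k)⁻¹ *
        ∑ e, sgn (e i) * (sgn (e i) + φ e (S (x i) - x i)) := by
      simp only [v, g, _root_.sum_apply, smul_apply, ContinuousLinearMap.comp_apply, smul_eq_mul,
        map_sub, hφx]
      congr 1; exact Finset.sum_congr rfl fun e _ => by ring
    have hterm : ∀ e : Fin k → Bool,
        (1 : ℝ) / 2 ≤ sgn (e i) * (sgn (e i) + φ e (S (x i) - x i)) := by
      intro e
      have h1 : |φ e (S (x i) - x i)| ≤ C * δ :=
        le_trans ((φ e).le_opNorm _) (mul_le_mul (hφn e) (hS i) (norm_nonneg _) hC)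
      have h2 : |sgn (e i) * φ e (S (x i) - x i)| ≤ C * δ := by rwa [abs_mul, abs_sgn, one_mul]
      rw [mul_add, sgn_mul_self]; linarith [neg_le_of_abs_le h2]
    have hge : (1 : ℝ) / 2 ≤ v i (x i) := by
      rw [hval, le_inv_mul_iff₀ h2k]
      have := Finset.card_nsmul_le_sum (univ : Finset (Fin k → Bool)) _ _ fun e _ => hterm e
      simpa using this
    exact le_trans hge (le_trans (le_abs_self _) ((v i).le_opNorm _))
  have hlow' : ∀ i, (1 : ℝ) / 2 ≤ ‖v i‖ := fun i =>
    le_trans (hlow i) (mul_le_of_le_one_right (norm_nonneg (v i)) (hx1 i))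
  have hk : (k : ℝ) ^ (1 / r) * (1 / 2) ≤ (∑ i, ‖v i‖ ^ r) ^ (1 / r) := by
    calc (k : ℝ) ^ (1 / r) * (1 / 2) = ((k : ℝ) * (1 / 2 : ℝ) ^ r) ^ (1 / r) := by
          rw [Real.mul_rpow (Nat.cast_nonneg k) (by positivity), one_div r,
            Real.rpow_rpow_inv (by norm_num) hr.ne']
      _ ≤ (∑ i, ‖v i‖ ^ r) ^ (1 / r) := by
          refine Real.rpow_le_rpow (by positivity) ?_ (by positivity)
          have := Finset.card_nsmul_le_sum (univ : Finset (Fin k)) (fun i => ‖v i‖ ^ r)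
            ((1 / 2 : ℝ) ^ r) fun i _ => Real.rpow_le_rpow (by norm_num) (hlow' i) hr.le
          simpa using this
  have hup := linear_part_bound g a ψ hg (C * ‖S‖) C ‖S‖ hG hA hψ hC (norm_nonneg _) le_rfl
  have hcv := le_trans hk (hcot k v)
  simp_rw [hv] at hcv
  have := le_trans hcv (mul_le_mul_of_nonneg_left hup hCr)
  nlinarith [this]

end Vale.Agent.P111
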