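import Mathlib

/-! A linear functional of norm at most `2 D` giving the derivative at `0` of a
polynomial of degree at most `D` from its values on `[-1,1]`. -/

namespace Vale.Agent.P111

open Complex Finset

/-- The character `θ ↦ exp (m θ i)`. -/
noncomputable def mode (m : ℤ) : ℝ → ℂ := fun θ => Complex.exp ((m : ℂ) * (θ : ℂ) * I)

theorem mode_mul (a b : ℤ) (θ : ℝ) : mode a θ * mode b θ = mode (a + b) θ := by
  unfold mode; rw [← Complex.exp_add]; push_cast; ring_nf

/-- Trigonometric polynomials of degree at most `n`. -/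
noncomputable def trig (n : ℕ) : Submodule ℂ (ℝ → ℂ) :=
  Submodule.span ℂ (mode '' {m : ℤ | |m| ≤ (n : ℤ)})

theorem mode_mem_trig {m : ℤ} {n : ℕ} (h : |m| ≤ (n : ℤ)) : mode m ∈ trig n :=
  Submodule.subset_span ⟨m, h, rfl⟩

theorem mul_mode_mem {n : ℕ} (e : ℤ) (he : |e| ≤ 1) {f : ℝ → ℂ} (hf : f ∈ trig n) :
    (fun θ => f θ * mode e θ) ∈ trig (n + 1) := by
  induction hf using Submodule.span_induction with
  | mem g hg =>
    obtain ⟨m, hm, rfl⟩ := hg
    have h1 : |m + e| ≤ ((n + 1 : ℕ) : ℤ) := by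
      have h2 : |m| ≤ (n : ℤ) := hm
      have := abs_add_le m e; push_cast; omega
    have h3 : (fun θ => mode m θ * mode e θ) = mode (m + e) := funext (mode_mul m e)
    rw [h3]; exact mode_mem_trig h1
  | zero => convert Submodule.zero_mem (trig (n + 1)) using 1; funext θ; simp
  | add f g _ _ hf hg => convert Submodule.add_mem _ hf hg using 1; funext θ; simp [add_mul]
  | smul c f _ hf => convert Submodule.smul_mem _ c hf using 1; funext θ; simp [mul_assoc]

theorem sin_pow_mem (n : ℕ) : (fun θ : ℝ => ((Real.sin θ : ℝ) : ℂ) ^ n) ∈ trig n := by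
  induction n with
  | zero =>
    have h : (fun θ : ℝ => ((Real.sin θ : ℝ) : ℂ) ^ 0) = mode 0 := by funext θ; simp [mode]
    rw [h]; exact mode_mem_trig (by simp)
  | succ n ih =>
    have h1 := mul_mode_mem 1 (by norm_num) ih
    have h2 := mul_mode_mem (-1) (by norm_num) ih
    have h3 := Submodule.smul_mem _ (1 / (2 * I)) (Submodule.sub_mem _ h1 h2)
    convert h3 using 1
    funext θ
    simp only [Pi.smul_apply, Pi.sub_apply, smul_eq_mul, pow_succ, mode, Complex.ofReal_sin,
      Complex.sin]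
    push_cast
    field_simp
    simp only [I_sq]
    ring_nf

/-- The sample points. -/
noncomputable def node (M j : ℕ) : ℝ := 2 * Real.pi * j / M

theorem sum_mode_node (M : ℕ) (hM : 0 < M) (z : ℤ) (hz : |z| < (M : ℤ)) :
    ∑ j ∈ range M, mode z (node M j) = if z = 0 then (M : ℂ) else 0 := by
  split_ifs with h
  · subst h; simp [mode]
  · have hprim := Complex.isPrimitiveRoot_exp M hM.ne'
    set w : ℂ := Complex.exp ((z : ℂ) * (2 * Real.pi / M) * I) with hw
    have hpow : ∀ j : ℕ, mode z (node M j) = w ^ j := by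
      intro j; rw [hw, ← Complex.exp_nat_mul]; unfold mode node; push_cast; ring_nf
    have hwe : w = Complex.exp (2 * Real.pi * I / M) ^ z := by
      rw [hw, ← Complex.exp_int_mul]; ring_nf
    have hne : w ≠ 1 := by
      rw [hwe]; intro h1
      have := (hprim.zpow_eq_one_iff_dvd z).mp h1
      exact h (Int.eq_zero_of_abs_lt_dvd this hz)
    have hone : w ^ M = 1 := by
      rw [hwe, ← zpow_natCast, ← zpow_mul, mul_comm z, zpow_mul, zpow_natCast, hprim.pow_eq_one,
        one_zpow]
    simp_rw [hpow]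
    rw [geom_sum_eq hne, hone]; simp

/-- Number of representations of `-e` as a difference of two elements of `range D`. -/
def cnt (D : ℕ) (e : ℤ) : ℤ :=
  ∑ a ∈ range D, ∑ b ∈ range D, if e + a - b = 0 then (1 : ℤ) else 0

theorem cnt_eq (D : ℕ) (e : ℤ) :
    cnt D e = ((range D).filter (fun a : ℕ => 0 ≤ e + a ∧ e + a < D)).card := by
  rw [cnt, Finset.natCast_card_filter]
  refine Finset.sum_congr rfl fun a _ => ?_
  by_cases h : 0 ≤ e + a ∧ e + a < D
  · rw [if_pos h, Finset.sum_eq_single (e + a).toNat]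
    · rw [if_pos]; omega
    · intro b _ hb; rw [if_neg]; omega
    · intro hb; exfalso; apply hb; rw [mem_range]; omega
  · rw [if_neg h]
    refine Finset.sum_eq_zero fun b hb => ?_
    rw [mem_range] at hb; rw [if_neg]; omega

theorem cnt_sub_cnt (D : ℕ) (n : ℤ) (hn : |n| ≤ (D : ℤ)) :
    cnt D (n + D) - cnt D (n - D) = -n := by
  rw [cnt_eq, cnt_eq]
  rw [abs_le] at hn
  rcases le_total 0 n with h | h
  · have h1 : (range D).filter (fun a : ℕ => 0 ≤ n + D + a ∧ n + D + a < D) = ∅ := by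
      ext a; simp; omega
    have h2 : (range D).filter (fun a : ℕ => 0 ≤ n - D + a ∧ n - D + a < D)
        = Ico (D - n.toNat) D := by
      ext a; simp; omega
    rw [h1, h2, card_empty, Nat.card_Ico]; omega
  · have h1 : (range D).filter (fun a : ℕ => 0 ≤ n + D + a ∧ n + D + a < D)
        = range (-n).toNat := by
      ext a; simp; omega
    have h2 : (range D).filter (fun a : ℕ => 0 ≤ n - D + a ∧ n - D + a < D) = ∅ := by
      ext a; simp; omega
    rw [h1, h2, card_empty, card_range]; omega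

/-- The squared absolute value of the Dirichlet sum. -/
noncomputable def ker (D : ℕ) (θ : ℝ) : ℝ := Complex.normSq (∑ a ∈ range D, mode a θ)

/-- The weights. -/
noncomputable def wt (D j : ℕ) : ℝ :=
  2 / ((4 * D : ℕ) : ℝ) * Real.sin (D * node (4 * D) j) * ker D (node (4 * D) j)

theorem ker_eq (D : ℕ) (θ : ℝ) :
    ((ker D θ : ℝ) : ℂ) = ∑ a ∈ range D, ∑ b ∈ range D, mode ((a : ℤ) - b) θ := by
  rw [ker, ← Complex.mul_conj, map_sum, Finset.sum_mul]
  refine Finset.sum_congr rfl fun a _ => ?_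
  rw [Finset.mul_sum]
  refine Finset.sum_congr rfl fun b _ => ?_
  have hc : (starRingEnd ℂ) (mode b θ) = mode (-(b : ℤ)) θ := by
    unfold mode; rw [← Complex.exp_conj]; simp
  rw [hc, mode_mul]; ring_nf

theorem sum_wt_mode (D : ℕ) (hD : 0 < D) (n : ℤ) (hn : |n| ≤ (D : ℤ)) :
    ∑ j ∈ range (4 * D), (wt D j : ℂ) * mode n (node (4 * D) j) = (n : ℂ) * I := by
  set M := 4 * D with hM
  have hM0 : (0 : ℕ) < M := by omega
  have hj : ∀ j, (wt D j : ℂ) * mode n (node M j) = 1 / ((M : ℂ) * I) *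
      ∑ a ∈ range D, ∑ b ∈ range D,
        (mode (n + D + a - b) (node M j) - mode (n - D + a - b) (node M j)) := by
    intro j
    set θ := node M j with hθ
    have hs : ((Real.sin (D * θ) : ℝ) : ℂ) = 1 / (2 * I) * (mode D θ - mode (-(D : ℤ)) θ) := by
      simp only [mode, Complex.ofReal_sin, Complex.sin]; push_cast; field_simp
      simp only [I_sq]; ring_nf
    have : (wt D j : ℂ) = 2 / (M : ℂ) * ((Real.sin (D * θ) : ℝ) : ℂ) * (ker D θ : ℂ) := by
      rw [wt, hθ, hM]; push_cast; ring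
    rw [this, hs, ker_eq]
    simp only [Finset.mul_sum, Finset.sum_mul]
    refine Finset.sum_congr rfl fun a _ => Finset.sum_congr rfl fun b _ => ?_
    have e1 : mode (n + D + a - b) θ = mode D θ * mode ((a : ℤ) - b) θ * mode n θ := by
      rw [mode_mul, mode_mul]; ring_nf
    have e2 : mode (n - D + a - b) θ = mode (-(D : ℤ)) θ * mode ((a : ℤ) - b) θ * mode n θ := by
      rw [mode_mul, mode_mul]; ring_nf
    rw [e1, e2]
    field_simp
  simp_rw [hj]
  rw [← Finset.mul_sum, Finset.sum_comm]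
  have hin : ∀ e : ℤ, |e| ≤ 2 * (D : ℤ) →
      ∑ a ∈ range D, ∑ j ∈ range M, ∑ b ∈ range D, mode (e + a - b) (node M j)
        = (M : ℂ) * (cnt D e : ℂ) := by
    intro e he
    rw [cnt]; push_cast; rw [Finset.mul_sum]
    refine Finset.sum_congr rfl fun a ha => ?_
    rw [Finset.sum_comm, Finset.mul_sum]
    refine Finset.sum_congr rfl fun b hb => ?_
    rw [mem_range] at ha hb
    rw [abs_le] at he
    rw [sum_mode_node M hM0 _ (by rw [abs_lt]; omega)]
    split_ifs <;> simp
  simp only [Finset.sum_sub_distrib]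
  rw [abs_le] at hn
  rw [hin (n + D) (by rw [abs_le]; omega), hin (n - D) (by rw [abs_le]; omega)]
  have hc := congrArg (fun t : ℤ => (t : ℂ)) (cnt_sub_cnt D n (by rw [abs_le]; omega))
  push_cast at hc
  rw [← mul_sub, hc]
  have hMC : (M : ℂ) ≠ 0 := by exact_mod_cast hM0.ne'
  field_simp
  rw [I_sq]; ring

theorem sum_wt_deriv (D : ℕ) (hD : 0 < D) {f : ℝ → ℂ} (hf : f ∈ trig D) :
    HasDerivAt f (∑ j ∈ range (4 * D), (wt D j : ℂ) * f (node (4 * D) j)) 0 := by
  induction hf using Submodule.span_induction with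
  | mem g hg =>
    obtain ⟨m, hm, rfl⟩ := hg
    rw [sum_wt_mode D hD m hm]
    have h := ((((hasDerivAt_id (0 : ℝ)).ofReal_comp).const_mul (m : ℂ)).mul_const I).cexp
    convert h using 1
    · rfl
    · simp
  | zero => simp
  | add f g _ _ hf hg =>
    have e : ∑ j ∈ range (4 * D), (wt D j : ℂ) * (f + g) (node (4 * D) j)
        = (∑ j ∈ range (4 * D), (wt D j : ℂ) * f (node (4 * D) j))
          + ∑ j ∈ range (4 * D), (wt D j : ℂ) * g (node (4 * D) j) := by
      rw [← Finset.sum_add_distrib]; exact Finset.sum_congr rfl fun j _ => by simp [mul_add]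
    rw [e]; exact hf.add hg
  | smul c f _ hf =>
    have e : ∑ j ∈ range (4 * D), (wt D j : ℂ) * (c • f) (node (4 * D) j)
        = c • ∑ j ∈ range (4 * D), (wt D j : ℂ) * f (node (4 * D) j) := by
      rw [Finset.smul_sum]
      exact Finset.sum_congr rfl fun j _ => by simp [smul_eq_mul]; ring
    rw [e]; exact hf.const_smul c

theorem sum_wt_sin_pow (D : ℕ) (hD : 0 < D) (n : ℕ) (hn : n ≤ D) :
    ∑ j ∈ range (4 * D), wt D j * Real.sin (node (4 * D) j) ^ n
      = if n = 1 then 1 else 0 := by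
  have hle : trig n ≤ trig D := Submodule.span_mono (Set.image_mono
    (fun m (hm : |m| ≤ (n : ℤ)) => le_trans hm (by exact_mod_cast hn)))
  have h1 := sum_wt_deriv D hD (hle (sin_pow_mem n))
  have h2 : HasDerivAt (fun θ : ℝ => ((Real.sin θ : ℝ) : ℂ) ^ n)
      (((if n = 1 then 1 else 0 : ℝ)) : ℂ) 0 := by
    have h3 := ((Real.hasDerivAt_sin 0).pow n).ofReal_comp
    simp only [Real.sin_zero, Real.cos_zero, mul_one] at h3
    convert h3 using 1
    · funext θ; push_cast; simp
    · rcases n with _ | _ | n <;> simp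
  have h4 := h1.unique h2
  exact_mod_cast h4

theorem sum_abs_wt (D : ℕ) (hD : 0 < D) :
    ∑ j ∈ range (4 * D), |wt D j| ≤ 2 * D := by
  have hker : ∑ j ∈ range (4 * D), ker D (node (4 * D) j) = ((4 * D : ℕ) : ℝ) * D := by
    have h : ((∑ j ∈ range (4 * D), ker D (node (4 * D) j) : ℝ) : ℂ)
        = ((((4 * D : ℕ) : ℝ) * D : ℝ) : ℂ) := by
      push_cast
      simp_rw [ker_eq]
      rw [Finset.sum_comm]
      have : ∀ a ∈ range D, (∑ j ∈ range (4 * D), ∑ b ∈ range D,
          mode ((a : ℤ) - b) (node (4 * D) j)) = ((4 * D : ℕ) : ℂ) := by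
        intro a ha
        rw [Finset.sum_comm, Finset.sum_eq_single a]
        · rw [sum_mode_node _ (by omega) _ (by simp; omega)]; simp
        · intro b hb hne
          rw [mem_range] at ha hb
          rw [sum_mode_node _ (by omega) _ (by rw [abs_lt]; omega), if_neg (by omega)]
        · exact fun h => absurd ha h
      rw [Finset.sum_congr rfl this]; simp; ring
    exact_mod_cast h
  have hb : ∀ j, |wt D j| ≤ 2 / ((4 * D : ℕ) : ℝ) * ker D (node (4 * D) j) := by
    intro j
    have hk : 0 ≤ ker D (node (4 * D) j) := Complex.normSq_nonneg _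
    rw [wt, abs_mul, abs_mul, abs_of_nonneg hk,
      abs_of_nonneg (show (0 : ℝ) ≤ 2 / ((4 * D : ℕ) : ℝ) by positivity)]
    exact mul_le_mul_of_nonneg_right
      (mul_le_of_le_one_right (by positivity) (Real.abs_sin_le_one _)) hk
  calc ∑ j ∈ range (4 * D), |wt D j|
      ≤ ∑ j ∈ range (4 * D), 2 / ((4 * D : ℕ) : ℝ) * ker D (node (4 * D) j) :=
        Finset.sum_le_sum fun j _ => hb j
    _ = 2 * D := by
        rw [← Finset.mul_sum, hker]
        have : ((4 * D : ℕ) : ℝ) ≠ 0 := by exact_mod_cast (by omega : 4 * D ≠ 0)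
        field_simp

/-- Derivative at `0` of a polynomial of degree at most `D` from values on `[-1,1]`. -/
theorem exists_deriv_functional (D : ℕ) (hD : 0 < D) :
    ∃ (m : ℕ) (ρ c : ℕ → ℝ), (∀ j, |ρ j| ≤ 1) ∧ (∑ j ∈ range m, |c j| ≤ 2 * D) ∧
      ∀ n ≤ D, ∑ j ∈ range m, c j * ρ j ^ n = if n = 1 then 1 else 0 :=
  ⟨4 * D, fun j => Real.sin (node (4 * D) j), wt D, fun _ => Real.abs_sin_le_one _,
    sum_abs_wt D hD, sum_wt_sin_pow D hD⟩

end Vale.Agent.P111
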