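import Vale.Agent.P111.Chaos
import Vale.Agent.P111.Trig
import Vale.Agent.P111.Main

/-! The Rademacher projection after an operator factoring through a space with bounded
Rademacher projection grows only like the logarithm of the factorisation constant. -/

set_option linter.unusedSectionVars false

namespace Vale.Agent.P111

open Finset

universe u

variable {k : ℕ}

/-- Symbol of the Rademacher projection. -/
def degOne (S : Finset (Fin k)) : ℝ := if S.card = 1 then 1 else 0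

theorem vmult_degOne {E : Type*} [NormedAddCommGroup E] [NormedSpace ℝ E]
    (f : (Fin k → Bool) → E) (σ : Fin k → Bool) :
    vmult degOne f σ = ∑ i, sgn (σ i) • (((2 : ℝ) ^ k)⁻¹ • ∑ η, sgn (η i) • f η) := by
  classical
  have h : ∀ y : Fin k → Bool, mker degOne σ y = ∑ i, sgn (σ i) * sgn (y i) := by
    intro y
    simp only [mker, degOne, ite_mul, one_mul, zero_mul]
    rw [← Finset.sum_filter]
    have h1 : (univ : Finset (Finset (Fin k))).filter (fun S => S.card = 1)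
        = (univ : Finset (Fin k)).map ⟨fun i => {i}, Finset.singleton_injective⟩ := by
      ext S; simp [Finset.card_eq_one, eq_comm]
    rw [h1, Finset.sum_map]
    simp [walsh]
  simp only [vmult, h, Finset.smul_sum, smul_smul, Finset.sum_smul, Finset.mul_sum]
  rw [Finset.sum_comm]
  exact Finset.sum_congr rfl fun i _ => Finset.sum_congr rfl fun y _ => by congr 1; ring

theorem radBound_iff {E : Type*} [NormedAddCommGroup E] [NormedSpace ℝ E] {K : ℝ} (hK : 0 ≤ K) :
    RadBound E k K ↔ ∀ f : (Fin k → Bool) → E, l2n (vmult degOne f) ≤ K * l2n f := by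
  refine forall_congr' fun f => ?_
  simp_rw [← vmult_degOne]
  rw [← l2n_sq, ← l2n_sq, ← mul_pow,
    pow_le_pow_iff_left₀ (l2n_nonneg _) (mul_nonneg hK (l2n_nonneg f)) two_ne_zero]

/-- Main estimate. -/
theorem factor_bound {E F Z : Type*} [NormedAddCommGroup E] [NormedSpace ℝ E]
    [NormedAddCommGroup F] [NormedSpace ℝ F] [NormedAddCommGroup Z] [NormedSpace ℝ Z]
    {K : ℝ} (hK : 1 ≤ K) (hZ : RadBound Z k K) (V : E →L[ℝ] Z) (W : Z →L[ℝ] F)
    {D : ℕ} (hD : 0 < D) (hγ : ‖W‖ * ‖V‖ ≤ (2 : ℝ) ^ D * ‖W.comp V‖)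
    (f : (Fin k → Bool) → E) :
    l2n (vmult degOne fun x => W (V (f x))) ≤ 24 * K * D * ‖W.comp V‖ * l2n f := by
  classical
  obtain ⟨m, ρ, c, hρ, hc, hid⟩ := exists_deriv_functional D hD
  set L : ℝ := 6 * K with hL
  have hL1 : (1 : ℝ) ≤ L := by rw [hL]; linarith
  have hL0 : 0 < L := lt_of_lt_of_le one_pos hL1
  set main : ℕ → ℝ := fun n => ∑ j ∈ range m, L * c j * (ρ j / L) ^ n with hmain
  have hmain' : ∀ n, main n = L * (L⁻¹) ^ n * ∑ j ∈ range m, c j * ρ j ^ n := by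
    intro n; simp only [hmain, div_eq_mul_inv, mul_pow, Finset.mul_sum]
    exact Finset.sum_congr rfl fun j _ => by ring
  have hsymb : ∀ S : Finset (Fin k), degOne S
      = (∑ j ∈ range m, L * c j * (ρ j / L) ^ S.card)
        - ∑ n ∈ Ioc D k, main n * if S.card = n then (1 : ℝ) else 0 := by
    intro S
    change _ = main S.card - _
    have hk : S.card ≤ k := by simpa using S.card_le_univ
    simp only [mul_ite, mul_one, mul_zero]
    rw [Finset.sum_ite_eq]
    rcases le_or_gt S.card D with h | h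
    · rw [if_neg (by simp; omega), sub_zero, hmain', hid _ h, degOne]
      split_ifs with h1
      · rw [h1, pow_one, mul_inv_cancel₀ hL0.ne', one_mul]
      · rw [mul_zero]
    · rw [if_pos (by simp; omega), sub_self, degOne, if_neg (by omega)]
  rw [vmult_congr hsymb, vmult_sub, vmult_sum, vmult_sum]
  refine le_trans (l2n_sub_le _ _) ?_
  set g : (Fin k → Bool) → Z := fun x => V (f x) with hg
  have hSf : l2n (fun x => W (V (f x))) ≤ ‖W.comp V‖ * l2n f :=
    l2n_map_le (W.comp V) f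
  have h1 : l2n (∑ j ∈ range m, (L * c j) •
      vmult (fun S => (ρ j / L) ^ S.card) fun x => W (V (f x)))
      ≤ L * (2 * D) * (‖W.comp V‖ * l2n f) := by
    refine le_trans (l2n_sum_le _ _) ?_
    refine le_trans (Finset.sum_le_sum (g := fun j => L * |c j| * (‖W.comp V‖ * l2n f))
      fun j _ => ?_) ?_
    · rw [l2n_smul, abs_mul, abs_of_pos hL0]
      refine mul_le_mul_of_nonneg_left (le_trans (l2n_noise _ ?_ _) hSf) (by positivity)
      rw [abs_div, abs_of_pos hL0]
      exact div_le_one_of_le₀ (le_trans (hρ j) hL1) hL0.le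
    · rw [← Finset.sum_mul, ← Finset.mul_sum]
      exact mul_le_mul_of_nonneg_right (mul_le_mul_of_nonneg_left hc hL0.le)
        (mul_nonneg (norm_nonneg _) (l2n_nonneg f))
  have hgb : l2n g ≤ ‖V‖ * l2n f := l2n_map_le V f
  have h2 : ∀ n ∈ Ioc D k, l2n (main n •
      vmult (fun S => if S.card = n then (1 : ℝ) else 0) fun x => W (V (f x)))
      ≤ L * (2 * D) * (‖W‖ * ‖V‖ * l2n f) * (1 / 2) ^ n := by
    intro n hn
    rw [mem_Ioc] at hn
    rw [l2n_smul, vmult_map _ W g]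
    have hm : |main n| ≤ L * (L⁻¹) ^ n * (2 * D) := by
      rw [hmain', abs_mul, abs_of_pos (by positivity : 0 < L * (L⁻¹) ^ n)]
      refine mul_le_mul_of_nonneg_left ?_ (by positivity)
      exact le_trans (Finset.abs_sum_le_sum_abs _ _) (le_trans (Finset.sum_le_sum fun j _ => by
        rw [abs_mul, abs_pow]
        exact mul_le_of_le_one_right (abs_nonneg _) (pow_le_one₀ (abs_nonneg _) (hρ j))) hc)
    have hW : l2n (fun x => W (vmult (fun S => if S.card = n then (1 : ℝ) else 0) g x))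
        ≤ ‖W‖ * ((3 * K) ^ n * (‖V‖ * l2n f)) :=
      le_trans (l2n_map_le W _) (mul_le_mul_of_nonneg_left
        (le_trans (l2n_chaos (by linarith) hZ n hn.2 g)
          (mul_le_mul_of_nonneg_left hgb (by positivity))) (norm_nonneg _))
    refine le_trans (mul_le_mul hm hW (l2n_nonneg _) (by positivity)) (le_of_eq ?_)
    have : (L⁻¹) ^ n * (3 * K) ^ n = (1 / 2 : ℝ) ^ n := by
      rw [← mul_pow]; congr 1; rw [hL]; field_simp; norm_num
    rw [← this]; ring
  have h3 : ∑ n ∈ Ioc D k, (1 / 2 : ℝ) ^ n ≤ (1 / 2) ^ D := by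
    have h : ∀ j, (1 / 2 : ℝ) ^ D - (1 / 2) ^ (D + j) = ∑ i ∈ range j, (1 / 2) ^ (D + 1 + i) := by
      intro j
      induction j with
      | zero => simp
      | succ j ih => rw [Finset.sum_range_succ, ← ih]; ring
    rw [← Finset.Icc_add_one_left_eq_Ioc, ← Finset.Ico_add_one_right_eq_Icc,
      Finset.sum_Ico_eq_sum_range, ← h]
    exact sub_le_self _ (by positivity)
  refine le_trans (add_le_add h1 (le_trans (l2n_sum_le _ _) (Finset.sum_le_sum h2))) ?_
  rw [← Finset.mul_sum]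
  have hγ' : ‖W‖ * ‖V‖ * (1 / 2 : ℝ) ^ D ≤ ‖W.comp V‖ := by
    rw [one_div, inv_pow, mul_inv_le_iff₀ (by positivity)]; linarith
  have hf0 := l2n_nonneg f
  have h4 : ‖W‖ * ‖V‖ * l2n f * ∑ n ∈ Ioc D k, (1 / 2 : ℝ) ^ n ≤ ‖W.comp V‖ * l2n f := by
    calc ‖W‖ * ‖V‖ * l2n f * ∑ n ∈ Ioc D k, (1 / 2 : ℝ) ^ n
        ≤ ‖W‖ * ‖V‖ * l2n f * (1 / 2) ^ D :=
          mul_le_mul_of_nonneg_left h3 (by positivity)
      _ = ‖W‖ * ‖V‖ * (1 / 2 : ℝ) ^ D * l2n f := by ring
      _ ≤ _ := mul_le_mul_of_nonneg_right hγ' hf0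
  calc L * (2 * D) * (‖W.comp V‖ * l2n f)
        + L * (2 * D) * (‖W‖ * ‖V‖ * l2n f) * ∑ n ∈ Ioc D k, (1 / 2 : ℝ) ^ n
      ≤ L * (2 * D) * (‖W.comp V‖ * l2n f) + L * (2 * D) * (‖W.comp V‖ * l2n f) := by
        rw [mul_assoc (L * (2 * D)) (‖W‖ * ‖V‖ * l2n f)]
        exact add_le_add le_rfl (mul_le_mul_of_nonneg_left h4 (by positivity))
    _ = _ := by rw [hL]; ring

/-- Hence `K(E) ≤ 24 K(Z) log₂ d(E, Z)`. -/
theorem radBound_of_iso {E Z : Type*} [NormedAddCommGroup E] [NormedSpace ℝ E]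
    [NormedAddCommGroup Z] [NormedSpace ℝ Z] {K : ℝ} (hK : 1 ≤ K) (hZ : RadBound Z k K)
    (e : E ≃L[ℝ] Z) {D : ℕ} (hD : 0 < D)
    (hd : ‖(e : E →L[ℝ] Z)‖ * ‖(e.symm : Z →L[ℝ] E)‖ ≤ (2 : ℝ) ^ D) :
    RadBound E k (24 * K * D) := by
  rw [radBound_iff (by positivity)]
  intro f
  rcases subsingleton_or_nontrivial E with hE | hE
  · have h0 : ∀ h : (Fin k → Bool) → E, l2n h = 0 := fun h => by
      rw [Subsingleton.elim h 0]; simp [l2n]
    rw [h0, h0, mul_zero]
  have hcomp : (e.symm : Z →L[ℝ] E).comp (e : E →L[ℝ] Z) = ContinuousLinearMap.id ℝ E := by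
    ext; simp
  have h1 : ‖(e.symm : Z →L[ℝ] E).comp (e : E →L[ℝ] Z)‖ = 1 := by
    rw [hcomp]; exact ContinuousLinearMap.norm_id
  have h := factor_bound hK hZ (e : E →L[ℝ] Z) (e.symm : Z →L[ℝ] E) hD
    (by rw [h1, mul_one, mul_comm]; exact hd) f
  rw [h1, mul_one] at h
  simpa using h

/-- Euclidean spaces have Rademacher projections of norm at most one. -/
theorem radBound_euclidean (ι : Type*) [Fintype ι] : RadBound (EuclideanSpace ℝ ι) k 1 := by
  intro f
  simp only [EuclideanSpace.norm_sq_eq, WithLp.ofLp_sum, WithLp.ofLp_smul, Finset.sum_apply,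
    Pi.smul_apply, smul_eq_mul, Real.norm_eq_abs, sq_abs, one_pow, one_mul]
  rw [Finset.sum_comm, Finset.sum_comm (s := univ) (t := (univ : Finset ι))]
  refine Finset.sum_le_sum fun l _ => ?_
  have h := mult_sq_le (k := k) (fun n => if n = 1 then 1 else 0) 1
    (fun n => by split_ifs <;> simp) (fun σ => f σ l)
  simp only [mult_deg_one, one_pow, one_mul] at h
  refine le_trans (le_of_eq (Finset.sum_congr rfl fun σ _ => ?_)) h
  congr 1
  refine Finset.sum_congr rfl fun i _ => ?_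
  simp [fhat, walsh]; ring

/-- A finite rank operator factors through a Euclidean space with constant `rank * norm`. -/
theorem rank_factor {X : Type u} [NormedAddCommGroup X] [NormedSpace ℝ X] (S : X →L[ℝ] X)
    [FiniteDimensional ℝ (LinearMap.range (S : X →ₗ[ℝ] X))] :
    ∃ (ι : Type u) (_ : Fintype ι) (V : X →L[ℝ] EuclideanSpace ℝ ι)
      (W : EuclideanSpace ℝ ι →L[ℝ] X), W.comp V = S ∧
        ‖W‖ * ‖V‖ ≤ (Module.finrank ℝ (LinearMap.range (S : X →ₗ[ℝ] X)) : ℝ) * ‖S‖ := by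
  classical
  set R := LinearMap.range (S : X →ₗ[ℝ] X)
  set N := Module.finrank ℝ R
  obtain ⟨w, hw, hrep⟩ := exists_bounded_basis R
  let V₀ : X →ₗ[ℝ] EuclideanSpace ℝ (ULift.{u} (Fin N)) :=
    (WithLp.linearEquiv 2 ℝ (ULift.{u} (Fin N) → ℝ)).symm.toLinearMap ∘ₗ
      LinearMap.pi fun l => (w.coord l.down) ∘ₗ (S : X →ₗ[ℝ] X).rangeRestrict
  let W₀ : EuclideanSpace ℝ (ULift.{u} (Fin N)) →ₗ[ℝ] X :=
    (Fintype.linearCombination ℝ fun l : ULift.{u} (Fin N) => (w l.down : X)) ∘ₗ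
      (WithLp.linearEquiv 2 ℝ (ULift.{u} (Fin N) → ℝ)).toLinearMap
  have hV : ∀ y, ‖V₀ y‖ ≤ Real.sqrt N * ‖S‖ * ‖y‖ := by
    intro y
    rw [EuclideanSpace.norm_eq]
    refine (Real.sqrt_le_sqrt (Finset.sum_le_card_nsmul _ _ ((‖S‖ * ‖y‖) ^ 2) fun l _ => ?_)).trans
      (le_of_eq ?_)
    · simp only [V₀, LinearMap.comp_apply, Real.norm_eq_abs, sq_abs]
      rw [← sq_abs]
      refine pow_le_pow_left₀ (abs_nonneg _) ?_ 2
      exact le_trans (hrep _ l.down) (S.le_opNorm y)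
    · rw [Finset.card_univ, Fintype.card_ulift, Fintype.card_fin, nsmul_eq_mul,
        Real.sqrt_mul (Nat.cast_nonneg _), Real.sqrt_sq (by positivity)]
      ring
  have hW : ∀ z, ‖W₀ z‖ ≤ Real.sqrt N * ‖z‖ := by
    intro z
    simp only [W₀, LinearMap.comp_apply, Fintype.linearCombination_apply]
    refine le_trans (norm_sum_le _ _) ?_
    refine le_trans (Finset.sum_le_sum (g := fun l => |z l|) fun l _ => ?_) ?_
    · rw [norm_smul, Real.norm_eq_abs]
      exact mul_le_of_le_one_right (abs_nonneg _) (hw _)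
    · rw [EuclideanSpace.norm_eq, ← Real.sqrt_mul (Nat.cast_nonneg _)]
      refine Real.le_sqrt_of_sq_le ?_
      have := sq_sum_le_card_mul_sum_sq (s := (univ : Finset (ULift.{u} (Fin N))))
        (f := fun l => |z l|)
      simpa using this
  refine ⟨ULift.{u} (Fin N), inferInstance, V₀.mkContinuous _ hV, W₀.mkContinuous _ hW, ?_, ?_⟩
  · ext y
    have h1 := congrArg (Submodule.subtype R) (w.sum_repr ((S : X →ₗ[ℝ] X).rangeRestrict y))
    rw [map_sum] at h1
    simp only [map_smul, Submodule.subtype_apply] at h1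
    simp only [ContinuousLinearMap.comp_apply, LinearMap.mkContinuous_apply, V₀, W₀,
      LinearMap.comp_apply, Fintype.linearCombination_apply]
    rw [Fintype.sum_equiv Equiv.ulift _ (fun l => w.repr ((S : X →ₗ[ℝ] X).rangeRestrict y) l •
      (w l : X)) (fun l => by rfl)]
    exact h1
  · refine le_trans (mul_le_mul (LinearMap.mkContinuous_norm_le _ (Real.sqrt_nonneg _) _)
      (LinearMap.mkContinuous_norm_le _ (by positivity) _) (norm_nonneg _) (Real.sqrt_nonneg _))
      (le_of_eq ?_)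
    rw [← mul_assoc, Real.mul_self_sqrt (Nat.cast_nonneg _)]

/-- `ℓ₁ᵏ` in `X`, cotype `r` of `X*`, and an almost fixing operator factoring through a space
with bounded Rademacher projection. -/
theorem factor_gap {X : Type u} [NormedAddCommGroup X] [NormedSpace ℝ X]
    {Z : Type*} [NormedAddCommGroup Z] [NormedSpace ℝ Z] {r Cr C δ K : ℝ}
    (hr : 0 < r) (hCr : 0 ≤ Cr) (hC : 0 ≤ C) (hcot : DualCotype X r Cr)
    {x : Fin k → X} (hx1 : ∀ i, ‖x i‖ ≤ 1)
    (hx : ∀ a : Fin k → ℝ, ∑ i, |a i| ≤ C * ‖∑ i, a i • x i‖)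
    (hK : 1 ≤ K) (hZ : RadBound Z k K) (V : X →L[ℝ] Z) (W : Z →L[ℝ] X)
    {D : ℕ} (hD : 0 < D) (hγ : ‖W‖ * ‖V‖ ≤ (2 : ℝ) ^ D * ‖W.comp V‖)
    (hS : ∀ i, ‖W (V (x i)) - x i‖ ≤ δ) (hδ : 2 * C * δ ≤ 1) :
    (k : ℝ) ^ (1 / r) ≤ 48 * C * Cr * K * D * ‖W.comp V‖ := by
  classical
  set B : ℝ := 24 * K * D * ‖W.comp V‖ with hB
  have hB0 : 0 ≤ B := by rw [hB]; positivity
  let T : (Fin k → ℝ) →ₗ[ℝ] X := Fintype.linearCombination ℝ x
  have hT : ∀ a, T a = ∑ i, a i • x i := fun a => by simp [T, Fintype.linearCombination_apply]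
  have hinj : Function.Injective T := by
    rw [injective_iff_map_eq_zero]
    intro a ha
    have h := hx a
    rw [← hT, ha, norm_zero, mul_zero] at h
    funext i
    have := le_antisymm h (Finset.sum_nonneg fun i _ => abs_nonneg (a i))
    rw [Finset.sum_eq_zero_iff_of_nonneg fun i _ => abs_nonneg _] at this
    exact abs_eq_zero.mp (this i (mem_univ i))
  have hex : ∀ e : Fin k → Bool, ∃ φ : StrongDual ℝ X, ‖φ‖ ≤ C ∧ ∀ i, φ (x i) = sgn (e i) := by
    intro e
    let f0 : LinearMap.range T →ₗ[ℝ] ℝ :=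
      (Fintype.linearCombination ℝ fun i => sgn (e i)) ∘ₗ
        (LinearEquiv.ofInjective T hinj).symm.toLinearMap
    have hf0 : ∀ a, f0 ⟨T a, LinearMap.mem_range_self T a⟩ = ∑ i, a i * sgn (e i) := by
      intro a
      have : (LinearEquiv.ofInjective T hinj).symm ⟨T a, LinearMap.mem_range_self T a⟩ = a := by
        rw [LinearEquiv.symm_apply_eq]; ext; simp
      simp [f0, this, Fintype.linearCombination_apply]
    have hb : ∀ y, ‖f0 y‖ ≤ C * ‖y‖ := by
      rintro ⟨_, a, rfl⟩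
      rw [hf0, Real.norm_eq_abs]
      refine le_trans (Finset.abs_sum_le_sum_abs _ _) ?_
      simp only [abs_mul, abs_sgn, mul_one]
      simpa [hT] using hx a
    obtain ⟨φ, hφ, hn⟩ := exists_extension_norm_eq (LinearMap.range T) (f0.mkContinuous C hb)
    refine ⟨φ, hn ▸ LinearMap.mkContinuous_norm_le _ hC _, fun i => ?_⟩
    have h1 : T (Pi.single i 1) = x i := by simp [hT, Pi.single_apply]
    rw [← h1]
    have h2 := hφ ⟨T (Pi.single i 1), LinearMap.mem_range_self T _⟩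
    simp only [LinearMap.mkContinuous_apply] at h2
    rw [h2, hf0]; simp [Pi.single_apply]
  choose φ hφn hφx using hex
  let v : Fin k → StrongDual ℝ X := fun i =>
    ((2 : ℝ) ^ k)⁻¹ • ∑ e : Fin k → Bool, sgn (e i) • (φ e).comp (W.comp V)
  have h2k : (0 : ℝ) < (2 : ℝ) ^ k := by positivity
  have hlow : ∀ i, (1 : ℝ) / 2 ≤ ‖v i‖ := by
    intro i
    have hval : v i (x i) = ((2 : ℝ) ^ k)⁻¹ *
        ∑ e, sgn (e i) * (sgn (e i) + φ e (W (V (x i)) - x i)) := by
      simp only [v, _root_.sum_apply, smul_apply, ContinuousLinearMap.comp_apply, smul_eq_mul,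
        map_sub, hφx]
      congr 1; exact Finset.sum_congr rfl fun e _ => by ring
    have hterm : ∀ e : Fin k → Bool,
        (1 : ℝ) / 2 ≤ sgn (e i) * (sgn (e i) + φ e (W (V (x i)) - x i)) := by
      intro e
      have h1 : |φ e (W (V (x i)) - x i)| ≤ C * δ :=
        le_trans ((φ e).le_opNorm _) (mul_le_mul (hφn e) (hS i) (norm_nonneg _) hC)
      have h2 : |sgn (e i) * φ e (W (V (x i)) - x i)| ≤ C * δ := by
        rwa [abs_mul, abs_sgn, one_mul]
      rw [mul_add, sgn_mul_self]; linarith [neg_le_of_abs_le h2]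
    have hge : (1 : ℝ) / 2 ≤ v i (x i) := by
      rw [hval, le_inv_mul_iff₀ h2k]
      have := Finset.card_nsmul_le_sum (univ : Finset (Fin k → Bool)) _ _ fun e _ => hterm e
      simpa using this
    exact le_trans hge (le_trans (le_abs_self _) ((v i).le_opNorm _ |>.trans
      (mul_le_of_le_one_right (norm_nonneg _) (hx1 i))))
  let G : (Fin k → Bool) → StrongDual ℝ X := fun σ => ∑ i, sgn (σ i) • v i
  have hGb : l2n G ≤ Real.sqrt ((2 : ℝ) ^ k) * (C * B) := by
    refine le_of_forall_lt_imp_le_of_dense fun a ha => ?_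
    rcases le_or_gt a 0 with ha0 | ha0
    · exact le_trans ha0 (by positivity)
    have hG0 : 0 < l2n G := lt_trans ha0 ha
    set θ : ℝ := a / l2n G with hθ
    have hθ1 : θ < 1 := (div_lt_one hG0).mpr ha
    have hθ0 : 0 ≤ θ := by positivity
    have hnorm : ∀ σ, ∃ y : X, ‖y‖ ≤ ‖G σ‖ ∧ θ * ‖G σ‖ ^ 2 ≤ G σ y := by
      intro σ
      rcases (norm_nonneg (G σ)).eq_or_lt with h0 | h0
      · exact ⟨0, by simp, by simp [← h0]⟩
      obtain ⟨y, hy, hy2⟩ := (G σ).exists_lt_apply_of_lt_opNorm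
        (show θ * ‖G σ‖ < ‖G σ‖ by nlinarith)
      rw [Real.norm_eq_abs] at hy2
      rcases abs_choice (G σ y) with h | h
      · refine ⟨‖G σ‖ • y, ?_, ?_⟩
        · rw [norm_smul, norm_norm]; exact mul_le_of_le_one_right h0.le hy.le
        · rw [map_smul, smul_eq_mul]; rw [h] at hy2; nlinarith
      · refine ⟨-(‖G σ‖ • y), ?_, ?_⟩
        · rw [norm_neg, norm_smul, norm_norm]; exact mul_le_of_le_one_right h0.le hy.le
        · rw [map_neg, map_smul, smul_eq_mul]; rw [h] at hy2; nlinarith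
    choose y hy hy2 using hnorm
    have hly : l2n y ≤ l2n G := by
      refine l2n_le_of_sq _ (l2n_nonneg _) ?_
      rw [l2n_sq]; exact Finset.sum_le_sum fun σ _ => pow_le_pow_left₀ (norm_nonneg _) (hy σ) 2
    set P := vmult degOne fun σ => W (V (y σ)) with hP
    have hPy : l2n P ≤ B * l2n G :=
      le_trans (factor_bound hK hZ V W hD hγ y) (mul_le_mul_of_nonneg_left hly hB0)
    have hswap : ∑ σ, G σ (y σ) = ∑ e, φ e (P e) := by
      simp only [hP, vmult_degOne, G, v, map_sum, map_smul, smul_eq_mul, _root_.sum_apply,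
        smul_apply, ContinuousLinearMap.comp_apply, Finset.mul_sum]
      rw [Finset.sum_comm]
      conv_rhs => rw [Finset.sum_comm]
      refine Finset.sum_congr rfl fun i _ => ?_
      rw [Finset.sum_comm]
      exact Finset.sum_congr rfl fun e _ => Finset.sum_congr rfl fun σ _ => by ring
    have hcs : ∑ e, ‖P e‖ ≤ Real.sqrt ((2 : ℝ) ^ k) * l2n P := by
      rw [l2n, ← Real.sqrt_mul h2k.le]
      refine Real.le_sqrt_of_sq_le ?_
      have := sq_sum_le_card_mul_sum_sq (s := (univ : Finset (Fin k → Bool)))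
        (f := fun e => ‖P e‖)
      simpa using this
    have hmain : θ * l2n G ^ 2 ≤ Real.sqrt ((2 : ℝ) ^ k) * (C * B) * l2n G := by
      calc θ * l2n G ^ 2 ≤ ∑ σ, G σ (y σ) := by
            rw [l2n_sq, Finset.mul_sum]; exact Finset.sum_le_sum fun σ _ => hy2 σ
        _ ≤ C * ∑ e, ‖P e‖ := by
            rw [hswap, Finset.mul_sum]
            refine Finset.sum_le_sum fun e _ => le_trans (le_abs_self _) ?_
            exact le_trans ((φ e).le_opNorm _) (mul_le_mul_of_nonneg_right (hφn e) (norm_nonneg _))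
        _ ≤ C * (Real.sqrt ((2 : ℝ) ^ k) * (B * l2n G)) := mul_le_mul_of_nonneg_left
            (le_trans hcs (mul_le_mul_of_nonneg_left hPy (Real.sqrt_nonneg _))) hC
        _ = _ := by ring
    have h3 : θ * l2n G ^ 2 = a * l2n G := by rw [hθ]; field_simp
    exact le_of_mul_le_mul_right (h3 ▸ hmain) hG0
  have hup : Real.sqrt (((2 : ℝ) ^ k)⁻¹ * ∑ σ : Fin k → Bool, ‖∑ i, sgn (σ i) • v i‖ ^ 2)
      ≤ C * B := by
    rw [Real.sqrt_mul (by positivity), Real.sqrt_inv, inv_mul_le_iff₀ (Real.sqrt_pos.mpr h2k)]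
    exact hGb
  have hk : (k : ℝ) ^ (1 / r) * (1 / 2) ≤ (∑ i, ‖v i‖ ^ r) ^ (1 / r) := by
    calc (k : ℝ) ^ (1 / r) * (1 / 2) = ((k : ℝ) * (1 / 2 : ℝ) ^ r) ^ (1 / r) := by
          rw [Real.mul_rpow (Nat.cast_nonneg k) (by positivity), one_div r,
            Real.rpow_rpow_inv (by norm_num) hr.ne']
      _ ≤ (∑ i, ‖v i‖ ^ r) ^ (1 / r) := by
          refine Real.rpow_le_rpow (by positivity) ?_ (by positivity)
          have := Finset.card_nsmul_le_sum (univ : Finset (Fin k)) (fun i => ‖v i‖ ^ r)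
            ((1 / 2 : ℝ) ^ r) fun i _ => Real.rpow_le_rpow (by norm_num) (hlow i) hr.le
          simpa using this
  have := le_trans (le_trans hk (hcot k v)) (mul_le_mul_of_nonneg_left hup hCr)
  rw [hB] at this
  linarith

end Vale.Agent.P111
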