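import Vale.Agent.P111.Factor

/-! An operator from a finite dimensional sup-norm space into a space of finite cotype factors
through a weighted `ℓ_{2q}` (Pisier's factorisation), whose Rademacher projection is bounded. -/

set_option linter.unusedSectionVars false

namespace Vale.Agent.P111

open Finset

universe u

variable {k : ℕ}

/-- A crude Khintchine inequality. -/
theorem sum_pow_le (j : ℕ) (a : Fin k → ℝ) :
    ∑ σ : Fin k → Bool, (∑ i, sgn (σ i) * a i) ^ (2 * j)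
      ≤ (2 : ℝ) ^ k * (2 * ((2 * j).factorial : ℝ)) * (∑ i, a i ^ 2) ^ j := by
  classical
  set A := ∑ i, a i ^ 2 with hA
  have hA0 : 0 ≤ A := Finset.sum_nonneg fun i _ => sq_nonneg _
  rcases hA0.eq_or_lt with h0 | hpos
  · have hz : ∀ i, a i = 0 := fun i => pow_eq_zero_iff two_ne_zero |>.mp
      ((Finset.sum_eq_zero_iff_of_nonneg fun i _ => sq_nonneg (a i)).mp h0.symm i (mem_univ i))
    rcases Nat.eq_zero_or_pos j with rfl | hj
    · simp
    · simp [hz, zero_pow (show 2 * j ≠ 0 by omega)]; positivity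
  set t := (Real.sqrt A)⁻¹ with ht
  have ht2 : t ^ 2 = A⁻¹ := by rw [ht, inv_pow, Real.sq_sqrt hA0]
  have hexp : ∑ σ : Fin k → Bool, Real.exp (t * ∑ i, sgn (σ i) * a i)
      ≤ (2 : ℝ) ^ k * 2 := by
    simp_rw [Finset.mul_sum, Real.exp_sum]
    rw [← Fintype.prod_sum (fun i (b : Bool) => Real.exp (t * (sgn b * a i)))]
    have h1 : ∀ i, ∑ b : Bool, Real.exp (t * (sgn b * a i)) = 2 * Real.cosh (t * a i) := by
      intro i; simp [sgn, Real.cosh_eq]; ring
    simp_rw [h1, Finset.prod_mul_distrib]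
    simp only [Finset.prod_const, Finset.card_univ, Fintype.card_fin]
    refine mul_le_mul_of_nonneg_left ?_ (by positivity)
    calc ∏ i, Real.cosh (t * a i) ≤ ∏ i, Real.exp ((t * a i) ^ 2 / 2) :=
          Finset.prod_le_prod (fun i _ => (Real.cosh_pos _).le) fun i _ =>
            Real.cosh_le_exp_half_sq _
      _ = Real.exp (1 / 2) := by
          rw [← Real.exp_sum]; congr 1
          simp_rw [mul_pow, ← Finset.sum_div, ← Finset.mul_sum]
          rw [← hA, ht2, inv_mul_cancel₀ hpos.ne']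
      _ ≤ 2 := by
          have h1 := Real.exp_bound_div_one_sub_of_interval (x := (1 / 2 : ℝ)) (by norm_num)
            (by norm_num)
          norm_num at h1 ⊢; exact h1
  have hpt : ∀ σ : Fin k → Bool, t ^ (2 * j) * (∑ i, sgn (σ i) * a i) ^ (2 * j)
      ≤ ((2 * j).factorial : ℝ) * Real.cosh (t * ∑ i, sgn (σ i) * a i) := by
    intro σ
    rw [← mul_pow, mul_comm ((2 * j).factorial : ℝ), ← div_le_iff₀ (by positivity)]
    exact le_hasSum (Real.hasSum_cosh _) j fun i _ =>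
      div_nonneg (Even.pow_nonneg (even_two_mul i) _) (Nat.cast_nonneg _)
  have hflip : ∑ σ : Fin k → Bool, Real.exp (-(t * ∑ i, sgn (σ i) * a i))
      = ∑ σ : Fin k → Bool, Real.exp (t * ∑ i, sgn (σ i) * a i) := by
    have hinv : Function.Involutive (fun σ : Fin k → Bool => fun i => !σ i) := by
      intro σ; funext i; simp
    rw [← hinv.bijective.sum_comp]
    refine Finset.sum_congr rfl fun σ _ => ?_
    rw [← mul_neg, ← Finset.sum_neg_distrib]
    congr 2
    exact Finset.sum_congr rfl fun i _ => by cases h : σ i <;> simp [sgn, h]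
  have h : t ^ (2 * j) * ∑ σ : Fin k → Bool, (∑ i, sgn (σ i) * a i) ^ (2 * j)
      ≤ ((2 * j).factorial : ℝ) * ((2 : ℝ) ^ k * 2) := by
    rw [Finset.mul_sum]
    refine le_trans (Finset.sum_le_sum fun σ _ => hpt σ) ?_
    rw [← Finset.mul_sum]
    refine mul_le_mul_of_nonneg_left ?_ (Nat.cast_nonneg _)
    simp only [Real.cosh_eq]
    rw [← Finset.sum_div, Finset.sum_add_distrib, hflip]
    linarith
  rw [pow_mul t, ht2, inv_pow, inv_mul_le_iff₀ (pow_pos hpos j)] at h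
  linarith

/-- Weighted or not, `ℓ_{2j}` has bounded Rademacher projection. -/
theorem radBound_lp (j : ℕ) (hj : 0 < j) (ι : Type*) [Fintype ι]
    [Fact (1 ≤ ((2 * j : ℕ) : ENNReal))] :
    RadBound (PiLp ((2 * j : ℕ) : ENNReal) fun _ : ι => ℝ) k (2 * ((2 * j).factorial : ℝ)) := by
  intro f
  set Kc : ℝ := 2 * ((2 * j).factorial : ℝ) with hKc
  have hKc1 : 1 ≤ Kc := by
    have : (1 : ℝ) ≤ ((2 * j).factorial : ℝ) := by exact_mod_cast (2 * j).factorial_pos
    rw [hKc]; linarith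
  have hnorm : ∀ z : PiLp ((2 * j : ℕ) : ENNReal) fun _ : ι => ℝ,
      (‖z‖ ^ 2) ^ j = ∑ l, z l ^ (2 * j) := by
    intro z
    have h0 : 0 ≤ ∑ l, ‖z l‖ ^ (2 * j) := Finset.sum_nonneg fun _ _ => by positivity
    have h1 : ∀ l, ‖z l‖ ^ (2 * j) = z l ^ (2 * j) := fun l => by
      rw [Real.norm_eq_abs, (even_two_mul j).pow_abs]
    rw [← pow_mul, PiLp.norm_eq_of_nat (2 * j) rfl, one_div,
      Real.rpow_inv_natCast_pow h0 (by omega)]
    exact Finset.sum_congr rfl fun l _ => h1 l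
  set R : (Fin k → Bool) → PiLp ((2 * j : ℕ) : ENNReal) fun _ : ι => ℝ :=
    fun σ => ∑ i, sgn (σ i) • (((2 : ℝ) ^ k)⁻¹ • ∑ η, sgn (η i) • f η) with hR
  have hRl : ∀ σ l, R σ l = ∑ i, sgn (σ i) * fhat (fun η => f η l) {i} := by
    intro σ l
    simp [hR, fhat, walsh, WithLp.ofLp_sum, Finset.sum_apply]
  have hN : (0 : ℝ) < (2 : ℝ) ^ k := by positivity
  obtain ⟨n, rfl⟩ : ∃ n, j = n + 1 := ⟨j - 1, by omega⟩
  have hA : ∀ l, (2 : ℝ) ^ k * ∑ i, fhat (fun η => f η l) {i} ^ 2 ≤ ∑ η, f η l ^ 2 := by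
    intro l
    refine le_trans (mul_le_mul_of_nonneg_left ?_ hN.le) (bessel fun η => f η l)
    have e := Finset.sum_map univ ⟨fun i => ({i} : Finset (Fin k)), Finset.singleton_injective⟩
      (fun S => fhat (fun η => f η l) S ^ 2)
    simp only [Function.Embedding.coeFn_mk] at e
    rw [← e]
    exact Finset.sum_le_sum_of_subset_of_nonneg (subset_univ _) fun S _ _ => sq_nonneg _
  have hmink : ∑ l, (∑ η, f η l ^ 2) ^ (n + 1) ≤ (∑ η, ‖f η‖ ^ 2) ^ (n + 1) := by
    have : Fact (1 ≤ ((n + 1 : ℕ) : ENNReal)) := ⟨by exact_mod_cast Nat.succ_pos n⟩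
    let v : (Fin k → Bool) → PiLp ((n + 1 : ℕ) : ENNReal) fun _ : ι => ℝ :=
      fun η => WithLp.toLp _ fun l => f η l ^ 2
    have hv : ∀ η, ‖v η‖ = ‖f η‖ ^ 2 := by
      intro η
      refine (pow_left_inj₀ (norm_nonneg _) (sq_nonneg _) (Nat.succ_ne_zero n)).mp ?_
      rw [hnorm, PiLp.norm_eq_of_nat (n + 1) rfl, one_div,
        Real.rpow_inv_natCast_pow (Finset.sum_nonneg fun _ _ => by positivity) (by omega)]
      refine Finset.sum_congr rfl fun l _ => ?_
      simp [v, ← pow_mul, abs_of_nonneg (sq_nonneg (f η l))]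
    have h := pow_le_pow_left₀ (norm_nonneg _) (norm_sum_le univ v) (n + 1)
    simp only [hv] at h
    refine le_trans (le_of_eq ?_) h
    rw [PiLp.norm_eq_of_nat (n + 1) rfl, one_div,
      Real.rpow_inv_natCast_pow (Finset.sum_nonneg fun _ _ => by positivity) (by omega)]
    refine Finset.sum_congr rfl fun l _ => ?_
    simp [v, WithLp.ofLp_sum, Finset.sum_apply,
      abs_of_nonneg (Finset.sum_nonneg fun η _ => sq_nonneg (f η l))]
  have hpm : (∑ σ, ‖R σ‖ ^ 2) ^ (n + 1)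
      ≤ ((2 : ℝ) ^ k) ^ n * ∑ σ, (‖R σ‖ ^ 2) ^ (n + 1) := by
    have := pow_sum_le_card_mul_sum_pow (s := (univ : Finset (Fin k → Bool)))
      (f := fun σ => ‖R σ‖ ^ 2) (fun σ _ => sq_nonneg _) n
    simpa using this
  have hmain : (∑ σ, ‖R σ‖ ^ 2) ^ (n + 1) ≤ (Kc ^ 2 * ∑ η, ‖f η‖ ^ 2) ^ (n + 1) := by
    calc (∑ σ, ‖R σ‖ ^ 2) ^ (n + 1)
        ≤ ((2 : ℝ) ^ k) ^ n * ∑ σ, ∑ l, R σ l ^ (2 * (n + 1)) := by simpa only [hnorm] using hpm
      _ ≤ ((2 : ℝ) ^ k) ^ n * ∑ l, (2 : ℝ) ^ k * Kc *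
            (∑ i, fhat (fun η => f η l) {i} ^ 2) ^ (n + 1) := by
          refine mul_le_mul_of_nonneg_left ?_ (by positivity)
          rw [Finset.sum_comm]
          refine Finset.sum_le_sum fun l _ => ?_
          simp only [hRl]
          exact sum_pow_le (n + 1) fun i => fhat (fun η => f η l) {i}
      _ = Kc * ∑ l, ((2 : ℝ) ^ k * ∑ i, fhat (fun η => f η l) {i} ^ 2) ^ (n + 1) := by
          simp only [Finset.mul_sum, mul_pow]
          refine Finset.sum_congr rfl fun l _ => ?_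
          rw [← Finset.mul_sum]; ring
      _ ≤ Kc * ∑ l, (∑ η, f η l ^ 2) ^ (n + 1) := by
          refine mul_le_mul_of_nonneg_left (Finset.sum_le_sum fun l _ => ?_) (by linarith)
          exact pow_le_pow_left₀ (by positivity) (hA l) _
      _ ≤ Kc * (∑ η, ‖f η‖ ^ 2) ^ (n + 1) := mul_le_mul_of_nonneg_left hmink (by linarith)
      _ ≤ _ := by
          rw [mul_pow (Kc ^ 2)]
          refine mul_le_mul_of_nonneg_right ?_ (by positivity)
          rw [← pow_mul]; exact le_self_pow₀ hKc1 (by omega)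
  exact le_of_pow_le_pow_left₀ (Nat.succ_ne_zero n) (by positivity) hmain

/-- Convexity of `x ↦ x ^ q`. -/
theorem pow_tangent {a b : ℝ} (ha : 0 ≤ a) (hb : 0 ≤ b) (q : ℕ) :
    a ^ q + q * a ^ (q - 1) * (b - a) ≤ b ^ q := by
  rcases ha.eq_or_lt with rfl | hpos
  · rcases q with _ | _ | q
    · simp
    · simp
    · simp; positivity
  rcases Nat.eq_zero_or_pos q with rfl | hq
  · simp
  have hbd : -2 ≤ (b - a) / a := by
    rw [le_div_iff₀ hpos]; linarith
  have h := mul_le_mul_of_nonneg_left (one_add_mul_le_pow hbd q) (pow_nonneg ha q)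
  have e1 : a ^ q * (1 + (b - a) / a) ^ q = b ^ q := by
    rw [← mul_pow]; congr 1; field_simp; ring
  have e2 : a ^ q * (1 + q * ((b - a) / a)) = a ^ q + q * a ^ (q - 1) * (b - a) := by
    have : a ^ q = a ^ (q - 1) * a := by rw [← pow_succ, Nat.sub_add_cancel hq]
    rw [this]; field_simp
  rw [e1, e2] at h; exact h

variable {X : Type u} [NormedAddCommGroup X] [NormedSpace ℝ X] {ι : Type u} [Fintype ι]

/-- Pisier's domination for operators on sup-norm spaces into a space of cotype `q`. -/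
theorem exists_domination [DecidableEq ι] {q : ℕ} {Cq : ℝ} (hq : 1 ≤ q) (hC : 1 ≤ Cq)
    (hX : PrimalCotype X q Cq) (W : (ι → ℝ) →L[ℝ] X) (hW : ‖W‖ ≤ 1) :
    ∃ μ : ι → ℝ, (∀ l, 0 < μ l) ∧ ∑ l, μ l ≤ (q + 1) * Cq ^ q ∧
      ∀ v : ι → ℝ, ‖W v‖ ^ q ≤ ‖v‖ ^ (q - 1) * ∑ l, μ l * |v l| := by
  set P := Cq ^ q with hP
  have hP1 : 1 ≤ P := one_le_pow₀ hC
  have hsum : ∀ (s : ℕ) (u : Fin s → ι → ℝ), (∀ l, ∑ i, |u i l| ≤ 1) →
      ∑ i, ‖W (u i)‖ ^ q ≤ P := by
    intro s u hu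
    have h := hX s fun i => W (u i)
    have hb : Real.sqrt (((2 : ℝ) ^ s)⁻¹ *
        ∑ x : Fin s → Bool, ‖∑ i, sgn (x i) • W (u i)‖ ^ 2) ≤ 1 := by
      rw [Real.sqrt_le_one, inv_mul_le_iff₀ (by positivity), mul_one]
      refine le_trans (Finset.sum_le_card_nsmul _ _ (1 : ℝ) fun x _ => ?_) (by simp)
      refine pow_le_one₀ (norm_nonneg _) ?_
      have : ∑ i, sgn (x i) • W (u i) = W (∑ i, sgn (x i) • u i) := by
        rw [map_sum]; simp only [map_smul]
      rw [this]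
      refine le_trans (W.le_opNorm _) (mul_le_one₀ hW (norm_nonneg _) ?_)
      refine (pi_norm_le_iff_of_nonneg zero_le_one).mpr fun l => ?_
      rw [Real.norm_eq_abs, Finset.sum_apply]
      refine le_trans (Finset.abs_sum_le_sum_abs _ _) (le_trans (le_of_eq ?_) (hu l))
      simp [abs_mul, abs_sgn]
    have hs : 0 ≤ ∑ i, ‖W (u i)‖ ^ q := Finset.sum_nonneg fun _ _ => by positivity
    have h2 : (∑ i, ‖W (u i)‖ ^ q) ^ (1 / (q : ℝ)) ≤ Cq :=
      le_trans h (mul_le_of_le_one_right (by linarith) hb)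
    have h3 := pow_le_pow_left₀ (Real.rpow_nonneg hs _) h2 q
    rwa [one_div, Real.rpow_inv_natCast_pow hs (by omega)] at h3
  let T : Set ℝ := {t | ∃ (s : ℕ) (u : Fin s → ι → ℝ),
    (∀ l, ∑ i, |u i l| ≤ 1) ∧ t = ∑ i, ‖W (u i)‖ ^ q}
  have hT0 : (0 : ℝ) ∈ T := ⟨0, fun i => i.elim0, by simp, by simp⟩
  have hTb : BddAbove T := ⟨P, by rintro t ⟨s, u, hu, rfl⟩; exact hsum s u hu⟩
  have hπle : sSup T ≤ P := csSup_le ⟨0, hT0⟩ (by rintro t ⟨s, u, hu, rfl⟩; exact hsum s u hu)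
  set δ : ℝ := P / (Fintype.card ι + 1) with hδ
  have hδ0 : 0 < δ := by rw [hδ]; positivity
  obtain ⟨_, ⟨s, u, hu, rfl⟩, ht⟩ := exists_lt_of_lt_csSup ⟨0, hT0⟩ (sub_lt_self (sSup T) hδ0)
  have hξ : ∀ y : X, ∃ ξ : StrongDual ℝ X, ‖ξ‖ ≤ 1 ∧ ξ y = ‖y‖ := by
    intro y
    obtain ⟨ξ, h1, h2⟩ := exists_dual_vector'' ℝ y
    exact ⟨ξ, h1, by simpa using h2⟩
  choose ξ hξn hξy using hξ
  have hξle : ∀ y z : X, ξ y z ≤ ‖z‖ := fun y z =>
    le_trans (le_abs_self _) (((ξ y).le_opNorm z).trans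
      (mul_le_of_le_one_left (norm_nonneg z) (hξn y)))
  let c : Fin s → ℝ := fun i => ‖W (u i)‖ ^ (q - 1)
  let ν : ι → ℝ := fun l => ∑ i, c i * u i l * ξ (W (u i)) (W (Pi.single l 1))
  have hν : ∀ w : ι → ℝ, ∑ i, c i * ξ (W (u i)) (W (fun l => u i l * w l)) = ∑ l, ν l * w l := by
    intro w
    simp only [ν, Finset.sum_mul]
    rw [Finset.sum_comm (s := univ) (t := univ) (f := fun l i => c i * u i l *
      ξ (W (u i)) (W (Pi.single l 1)) * w l)]
    refine Finset.sum_congr rfl fun i _ => ?_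
    conv_lhs => rw [pi_eq_sum_univ' (fun l => u i l * w l)]
    simp only [map_sum, map_smul, smul_eq_mul, Finset.mul_sum]
    exact Finset.sum_congr rfl fun l _ => by ring
  have htot : ∑ l, |ν l| ≤ P := by
    let τ : ι → ℝ := fun l => if 0 ≤ ν l then 1 else -1
    have hτ : ∀ l, |τ l| = 1 := fun l => by simp only [τ]; split_ifs <;> simp
    have hb : ∀ l, ∑ i, |u i l * τ l| ≤ 1 := fun l => by simpa [abs_mul, hτ] using hu l
    have e : ∑ l, |ν l| = ∑ l, ν l * τ l := Finset.sum_congr rfl fun l _ => by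
      simp only [τ]; split_ifs with h
      · rw [abs_of_nonneg h, mul_one]
      · rw [abs_of_neg (not_le.mp h)]; ring
    rw [e, ← hν]
    have hpt : ∀ i, (q : ℝ) * (c i * ξ (W (u i)) (W fun l => u i l * τ l))
        ≤ ((q : ℝ) - 1) * ‖W (u i)‖ ^ q + ‖W fun l => u i l * τ l‖ ^ q := by
      intro i
      have h1 := pow_tangent (norm_nonneg (W (u i))) (norm_nonneg (W fun l => u i l * τ l)) q
      have h2 := mul_le_mul_of_nonneg_left (hξle (W (u i)) (W fun l => u i l * τ l))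
        (show (0 : ℝ) ≤ q * c i by positivity)
      have h3 : ‖W (u i)‖ ^ q = c i * ‖W (u i)‖ := by
        rw [← pow_succ, Nat.sub_add_cancel hq]
      simp only [c] at h2 h3 ⊢
      nlinarith
    have h := Finset.sum_le_sum (s := univ) fun i _ => hpt i
    rw [← Finset.mul_sum, Finset.sum_add_distrib, ← Finset.mul_sum] at h
    have h1 := hsum s u hu
    have h2 := hsum s (fun i l => u i l * τ l) hb
    have hq' : (1 : ℝ) ≤ q := by exact_mod_cast hq
    have h4 := mul_le_mul_of_nonneg_left h1 (show (0 : ℝ) ≤ (q : ℝ) - 1 by linarith)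
    exact le_of_mul_le_mul_left (by linarith) (show (0 : ℝ) < q by linarith)
  refine ⟨fun l => q * |ν l| + δ, fun l => by positivity, ?_, fun v => ?_⟩
  · rw [Finset.sum_add_distrib, ← Finset.mul_sum]
    simp only [Finset.sum_const, Finset.card_univ, nsmul_eq_mul]
    have h1 : (Fintype.card ι : ℝ) * δ ≤ P := by
      rw [hδ, mul_div_assoc', div_le_iff₀ (by positivity)]; nlinarith
    nlinarith [mul_le_mul_of_nonneg_left htot (Nat.cast_nonneg q : (0 : ℝ) ≤ q)]
  rcases (norm_nonneg v).eq_or_lt with h0 | hv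
  · have hz : v = 0 := norm_eq_zero.mp h0.symm
    subst hz; simp [zero_pow (show q ≠ 0 by omega)]
  set N := ‖v‖ with hN
  let w : ι → ℝ := fun l => N⁻¹ * v l
  have hw : ∀ l, |w l| ≤ 1 := fun l => by
    simp only [w, abs_mul, abs_inv, abs_of_pos hv]
    rw [inv_mul_le_iff₀ hv, mul_one]
    exact (Real.norm_eq_abs (v l)).symm.trans_le (norm_le_pi_norm v l)
  let u' : Fin (s + 1) → ι → ℝ :=
    Fin.snoc (α := fun _ => ι → ℝ) (fun i l => u i l * (1 - |w l|)) w
  have hu' : ∀ l, ∑ i, |u' i l| ≤ 1 := by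
    intro l
    simp only [Fin.sum_univ_castSucc, u', Fin.snoc_castSucc, Fin.snoc_last, abs_mul,
      ← Finset.sum_mul]
    have h1 : 0 ≤ 1 - |w l| := by linarith [hw l]
    rw [abs_of_nonneg h1]
    nlinarith [mul_le_mul_of_nonneg_right (hu l) h1]
  have hmax := le_csSup hTb ⟨s + 1, u', hu', rfl⟩
  simp only [Fin.sum_univ_castSucc, u', Fin.snoc_castSucc, Fin.snoc_last] at hmax
  have hlow : ∀ i, ‖W (u i)‖ ^ q - q * (c i * ξ (W (u i)) (W fun l => u i l * |w l|))
      ≤ ‖W fun l => u i l * (1 - |w l|)‖ ^ q := by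
    intro i
    have h1 := pow_tangent (norm_nonneg (W (u i)))
      (norm_nonneg (W fun l => u i l * (1 - |w l|))) q
    have h2 : ‖W (u i)‖ - ξ (W (u i)) (W fun l => u i l * |w l|)
        ≤ ‖W fun l => u i l * (1 - |w l|)‖ := by
      have e : (fun l => u i l * (1 - |w l|)) = u i - fun l => u i l * |w l| := by
        funext l; simp; ring
      refine le_trans (le_of_eq ?_) (hξle (W (u i)) _)
      rw [e, map_sub, map_sub, hξy]
    have h3 := mul_le_mul_of_nonneg_left h2 (show (0 : ℝ) ≤ q * c i by positivity)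
    simp only [c] at h3 ⊢
    nlinarith
  have hw' : ‖W w‖ ^ q ≤ q * ∑ l, |ν l| * |w l| + δ := by
    have h := Finset.sum_le_sum (s := univ) fun i _ => hlow i
    rw [Finset.sum_sub_distrib, ← Finset.mul_sum, hν] at h
    have h2 : ∑ l, ν l * |w l| ≤ ∑ l, |ν l| * |w l| :=
      Finset.sum_le_sum fun l _ => mul_le_mul_of_nonneg_right (le_abs_self _) (abs_nonneg _)
    nlinarith [mul_le_mul_of_nonneg_left h2 (Nat.cast_nonneg q : (0 : ℝ) ≤ q)]
  have hδw : δ ≤ ∑ l, δ * |w l| := by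
    obtain ⟨l, hl⟩ : ∃ l, |v l| = N := by
      by_contra hne; push Not at hne
      have hlt : ‖v‖ < N := (pi_norm_lt_iff hv).mpr fun l =>
        lt_of_le_of_ne (norm_le_pi_norm v l) (by simpa using hne l)
      exact lt_irrefl _ hlt
    refine le_trans (le_of_eq ?_) (Finset.single_le_sum
      (fun j _ => mul_nonneg hδ0.le (abs_nonneg (w j))) (mem_univ l))
    simp [w, abs_mul, abs_inv, abs_of_pos hv, hl, inv_mul_cancel₀ hv.ne']
  have hWw : ‖W v‖ = N * ‖W w‖ := by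
    have : v = N • w := by funext l; simp [w, ← mul_assoc, mul_inv_cancel₀ hv.ne']
    conv_lhs => rw [this]
    rw [map_smul, norm_smul, Real.norm_eq_abs, abs_of_pos hv]
  rw [hWw, mul_pow]
  refine le_trans (mul_le_mul_of_nonneg_left (le_trans hw' (add_le_add le_rfl hδw))
    (pow_nonneg hv.le q)) (le_of_eq ?_)
  have e : N ^ q = N ^ (q - 1) * N := by rw [← pow_succ, Nat.sub_add_cancel hq]
  rw [e, Finset.mul_sum, ← Finset.sum_add_distrib, Finset.mul_sum, Finset.mul_sum]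
  refine Finset.sum_congr rfl fun l _ => ?_
  simp only [w, abs_mul, abs_inv, abs_of_pos hv]
  field_simp

/-- The operator is bounded for the weighted `ℓ_{2q}` norm. -/
theorem domination_lp [DecidableEq ι] {q : ℕ} {Cq : ℝ} (hq : 1 ≤ q) (hC : 1 ≤ Cq)
    (hX : PrimalCotype X q Cq) (W : (ι → ℝ) →L[ℝ] X) (hW : ‖W‖ ≤ 1) :
    ∃ μ : ι → ℝ, (∀ l, 0 < μ l) ∧ ∑ l, μ l ≤ (q + 1) * Cq ^ q ∧
      ∀ v : ι → ℝ, ∑ l, μ l * |v l| ^ (2 * q) ≤ 1 → ‖W v‖ ≤ (q + 1) * Cq + 4 := by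
  obtain ⟨μ, hμ0, hμs, hdom⟩ := exists_domination hq hC hX W hW
  refine ⟨μ, hμ0, hμs, fun v hv => ?_⟩
  obtain ⟨L, hL⟩ := pow_unbounded_of_one_lt ‖v‖ one_lt_two
  let lay : ℕ → ι → ℝ := fun i l => if (2 : ℝ) ^ i < |v l| ∧ |v l| ≤ 2 ^ (i + 1) then v l else 0
  let low : ι → ℝ := fun l => if |v l| ≤ 1 then v l else 0
  have hsplit : ∀ M : ℕ, (fun l => if |v l| ≤ 2 ^ M then v l else 0)
      = low + ∑ i ∈ range M, lay i := by
    intro M
    induction M with
    | zero => funext l; simp [low]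
    | succ M ih =>
      rw [Finset.sum_range_succ, ← add_assoc, ← ih]
      funext l
      have h12 : (2 : ℝ) ^ M ≤ 2 ^ (M + 1) := pow_le_pow_right₀ one_le_two (Nat.le_succ M)
      simp only [Pi.add_apply, lay]
      rcases le_or_gt |v l| (2 ^ M) with h | h
      · simp [h, le_trans h h12, not_lt.mpr h]
      · simp [h, not_le.mpr h]
  have hv' : v = low + ∑ i ∈ range L, lay i := by
    rw [← hsplit]; funext l
    rw [if_pos]
    exact le_trans ((Real.norm_eq_abs (v l)).symm.trans_le (norm_le_pi_norm v l)) hL.le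
  have hlow : ‖W low‖ ≤ (q + 1) * Cq := by
    have hn : ∀ l, |low l| ≤ 1 := fun l => by simp only [low]; split_ifs with h <;> simp [h]
    have hn' : ‖low‖ ≤ 1 := (pi_norm_le_iff_of_nonneg zero_le_one).mpr fun l => by
      rw [Real.norm_eq_abs]; exact hn l
    refine le_of_pow_le_pow_left₀ (show q ≠ 0 by omega) (by positivity) ?_
    refine le_trans (hdom low) (le_trans (mul_le_of_le_one_left
      (Finset.sum_nonneg fun l _ => mul_nonneg (hμ0 l).le (abs_nonneg _))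
      (pow_le_one₀ (norm_nonneg _) hn')) ?_)
    refine le_trans (Finset.sum_le_sum fun l _ =>
      mul_le_of_le_one_right (hμ0 l).le (hn l)) (le_trans hμs ?_)
    rw [mul_pow]
    refine mul_le_mul_of_nonneg_right ?_ (pow_nonneg (by linarith) q)
    exact le_self_pow₀ (by simp) (by omega)
  have hlay : ∀ i, ‖W (lay i)‖ ≤ 2 * (1 / 2 : ℝ) ^ i := by
    intro i
    have hn : ‖lay i‖ ≤ 2 ^ (i + 1) := (pi_norm_le_iff_of_nonneg (by positivity)).mpr fun l => by
      simp only [lay, Real.norm_eq_abs]; split_ifs with h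
      · exact h.2
      · simp
    have hmass : ∑ l, μ l * |lay i l| ≤ 2 ^ (i + 1) * ((1 / 2 : ℝ) ^ i) ^ (2 * q) := by
      refine le_trans (Finset.sum_le_sum (g := fun l => 2 ^ (i + 1) * ((1 / 2 : ℝ) ^ i) ^ (2 * q)
        * (μ l * |v l| ^ (2 * q))) fun l _ => ?_) ?_
      · simp only [lay]; split_ifs with h
        · have h1 : 1 ≤ (((1 / 2 : ℝ) ^ i) * |v l|) ^ (2 * q) := by
            refine one_le_pow₀ ?_
            rw [one_div, inv_pow, le_inv_mul_iff₀ (by positivity), mul_one]; exact h.1.le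
          rw [mul_pow] at h1
          calc μ l * |v l| ≤ μ l * 2 ^ (i + 1) := mul_le_mul_of_nonneg_left h.2 (hμ0 l).le
            _ ≤ μ l * 2 ^ (i + 1) * (((1 / 2 : ℝ) ^ i) ^ (2 * q) * |v l| ^ (2 * q)) :=
                le_mul_of_one_le_right (mul_nonneg (hμ0 l).le (by positivity)) h1
            _ = _ := by ring
        · rw [abs_zero, mul_zero]
          have := (hμ0 l).le
          positivity
      · rw [← Finset.mul_sum]
        exact mul_le_of_le_one_right (by positivity) hv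
    refine le_of_pow_le_pow_left₀ (show q ≠ 0 by omega) (by positivity) ?_
    refine le_trans (hdom (lay i)) (le_trans (mul_le_mul (pow_le_pow_left₀ (norm_nonneg _) hn _)
      hmass (Finset.sum_nonneg fun l _ => mul_nonneg (hμ0 l).le (abs_nonneg _)) (by positivity))
      (le_of_eq ?_))
    rw [← mul_assoc, ← pow_succ, Nat.sub_add_cancel hq, mul_pow, ← pow_mul, ← pow_mul, ← pow_mul]
    have : (2 : ℝ) ^ ((i + 1) * q) * (1 / 2) ^ (i * (2 * q)) = 2 ^ q * (1 / 2) ^ (i * q) := by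
      have e : (1 / 2 : ℝ) ^ (i * (2 * q)) = (1 / 2) ^ (i * q) * (1 / 2) ^ (i * q) := by
        rw [← pow_add]; congr 1; ring
      rw [e, ← mul_assoc, add_mul, one_mul, pow_add, mul_comm ((2:ℝ) ^ (i * q)), mul_assoc ((2:ℝ) ^ q),
        ← mul_pow]
      norm_num
    exact this
  rw [hv', map_add, map_sum]
  refine le_trans (norm_add_le _ _) (add_le_add hlow (le_trans (norm_sum_le _ _) ?_))
  refine le_trans (Finset.sum_le_sum fun i _ => hlay i) ?_
  rw [← Finset.mul_sum]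
  have := (summable_geometric_two).sum_le_tsum (range L) (fun i _ => by positivity)
  rw [tsum_geometric_two] at this
  linarith

/-- A factorisation through a sup-norm space becomes one through `ℓ_{2q}`. -/
theorem sup_factor {q : ℕ} {Cq : ℝ} (hq : 1 ≤ q) (hC : 1 ≤ Cq) (hX : PrimalCotype X q Cq)
    {Y : Type*} [NormedAddCommGroup Y] [NormedSpace ℝ Y] (V : Y →L[ℝ] (ι → ℝ))
    (W : (ι → ℝ) →L[ℝ] X) :
    ∃ (_ : Fact (1 ≤ ((2 * q : ℕ) : ENNReal)))
      (V' : Y →L[ℝ] PiLp ((2 * q : ℕ) : ENNReal) fun _ : ι => ℝ)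
      (W' : (PiLp ((2 * q : ℕ) : ENNReal) fun _ : ι => ℝ) →L[ℝ] X),
      W'.comp V' = W.comp V ∧ ‖W'‖ * ‖V'‖ ≤ ((q + 1) * Cq + 4) ^ 2 * (‖W‖ * ‖V‖) := by
  classical
  have hfact : Fact (1 ≤ ((2 * q : ℕ) : ENNReal)) := ⟨by exact_mod_cast (by omega : 1 ≤ 2 * q)⟩
  set c : ℝ := (q + 1) * Cq + 4 with hc
  have hc0 : 0 ≤ c := by rw [hc]; nlinarith [(Nat.cast_nonneg q : (0 : ℝ) ≤ q)]
  refine ⟨hfact, ?_⟩
  rcases (norm_nonneg W).eq_or_lt with h0 | hWpos
  · refine ⟨0, 0, ?_, by simp [← h0]⟩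
    rw [norm_eq_zero.mp h0.symm]; simp
  set W₁ : (ι → ℝ) →L[ℝ] X := ‖W‖⁻¹ • W with hW1
  obtain ⟨μ, hμ0, hμs, hμ⟩ := domination_lp hq hC hX W₁ (by
    rw [hW1, norm_smul, norm_inv, norm_norm, inv_mul_cancel₀ hWpos.ne'])
  let ρ : ι → ℝ := fun l => μ l ^ ((2 * q : ℕ) : ℝ)⁻¹
  have hρ0 : ∀ l, 0 < ρ l := fun l => Real.rpow_pos_of_pos (hμ0 l) _
  have hρp : ∀ l, ρ l ^ (2 * q) = μ l := fun l =>
    Real.rpow_inv_natCast_pow (hμ0 l).le (by omega)
  let Z := PiLp ((2 * q : ℕ) : ENNReal) fun _ : ι => ℝ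
  have hnorm : ∀ z : Z, ‖z‖ ^ (2 * q) = ∑ l, z l ^ (2 * q) := by
    intro z
    rw [PiLp.norm_eq_of_nat (2 * q) rfl, one_div,
      Real.rpow_inv_natCast_pow (Finset.sum_nonneg fun _ _ => by positivity) (by omega)]
    exact Finset.sum_congr rfl fun l _ => by rw [Real.norm_eq_abs, (even_two_mul q).pow_abs]
  let e := (WithLp.linearEquiv ((2 * q : ℕ) : ENNReal) ℝ (ι → ℝ))
  let V₀ : Y →ₗ[ℝ] Z := e.symm.toLinearMap ∘ₗ
    (LinearMap.pi fun l => ρ l • LinearMap.proj l) ∘ₗ (V : Y →ₗ[ℝ] ι → ℝ)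
  let W₀ : Z →ₗ[ℝ] X := (W : (ι → ℝ) →ₗ[ℝ] X) ∘ₗ
    (LinearMap.pi fun l => (ρ l)⁻¹ • LinearMap.proj l) ∘ₗ e.toLinearMap
  have hV : ∀ y, ‖V₀ y‖ ≤ c * ‖V‖ * ‖y‖ := by
    intro y
    refine le_of_pow_le_pow_left₀ (show 2 * q ≠ 0 by omega) (by positivity) ?_
    rw [hnorm]
    calc ∑ l, (V₀ y) l ^ (2 * q) = ∑ l, μ l * (V y l) ^ (2 * q) := by
          refine Finset.sum_congr rfl fun l _ => ?_
          rw [← hρp l, ← mul_pow]; simp [V₀, e]
      _ ≤ ∑ l, μ l * (‖V‖ * ‖y‖) ^ (2 * q) := by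
          refine Finset.sum_le_sum fun l _ => mul_le_mul_of_nonneg_left ?_ (hμ0 l).le
          rw [← (even_two_mul q).pow_abs]
          refine pow_le_pow_left₀ (abs_nonneg _) ?_ _
          exact ((Real.norm_eq_abs _).symm.trans_le (norm_le_pi_norm (V y) l)).trans (V.le_opNorm y)
      _ ≤ _ := by
          rw [← Finset.sum_mul, mul_assoc c, mul_pow c]
          refine mul_le_mul_of_nonneg_right (le_trans hμs ?_) (by positivity)
          have h1 : (q + 1 : ℝ) * Cq ^ q ≤ ((q + 1) * Cq) ^ (2 * q) := by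
            rw [mul_pow]
            exact mul_le_mul (le_self_pow₀ (by simp) (by omega))
              (pow_le_pow_right₀ hC (by omega)) (by positivity) (by positivity)
          exact le_trans h1 (pow_le_pow_left₀ (by positivity) (by rw [hc]; linarith) _)
  have hW : ∀ z, ‖W₀ z‖ ≤ ‖W‖ * c * ‖z‖ := by
    intro z
    rcases (norm_nonneg z).eq_or_lt with hz | hz
    · rw [norm_eq_zero.mp hz.symm]; simp
    have h := hμ (fun l => ‖z‖⁻¹ * ((ρ l)⁻¹ * z l)) (le_of_eq (by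
      have : ∀ l, μ l * |‖z‖⁻¹ * ((ρ l)⁻¹ * z l)| ^ (2 * q) = (‖z‖ ^ (2 * q))⁻¹ * z l ^ (2 * q) := by
        intro l
        rw [(even_two_mul q).pow_abs, mul_pow, mul_pow, inv_pow, inv_pow, hρp]
        field_simp [(hμ0 l).ne']
      simp_rw [this, ← Finset.mul_sum, ← hnorm]
      exact inv_mul_cancel₀ (pow_ne_zero _ hz.ne')))
    have e1 : (fun l => ‖z‖⁻¹ * ((ρ l)⁻¹ * z l))
        = ‖z‖⁻¹ • fun l => (ρ l)⁻¹ * z l := by funext l; simp
    rw [e1, map_smul, hW1, smul_apply, norm_smul, norm_smul,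
      norm_inv, norm_norm, norm_inv, norm_norm] at h
    rw [inv_mul_le_iff₀ hz, inv_mul_le_iff₀ hWpos] at h
    have e2 : W₀ z = W (fun l => (ρ l)⁻¹ * z l) := by
      simp only [W₀, LinearMap.comp_apply, ContinuousLinearMap.coe_coe]
      congr 1
    rw [e2]; linarith
  refine ⟨V₀.mkContinuous _ hV, W₀.mkContinuous _ hW, ?_, ?_⟩
  · ext y
    simp only [ContinuousLinearMap.comp_apply, LinearMap.mkContinuous_apply, W₀, V₀,
      LinearMap.comp_apply, ContinuousLinearMap.coe_coe]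
    congr 1; funext l
    simp [e, (hρ0 l).ne']
  · refine le_trans (mul_le_mul (LinearMap.mkContinuous_norm_le _ (by positivity) _)
      (LinearMap.mkContinuous_norm_le _ (by positivity) _) (norm_nonneg _) (by positivity))
      (le_of_eq (by ring))

end Vale.Agent.P111
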