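import Vale.Agent.P111.Cube

/-! A space not containing the `ℓ₁ˢ` uniformly has type `p` for some `p > 1` (easy direction of
Maurey–Pisier). -/

set_option linter.unusedSectionVars false

namespace Vale.Agent.P111

open Finset

variable {X : Type*} [NormedAddCommGroup X] [NormedSpace ℝ X]

/-- `E ‖∑ εᵢ xᵢ‖²`. -/
noncomputable def radSq {ι : Type*} [Fintype ι] [DecidableEq ι] (x : ι → X) : ℝ :=
  ((2 : ℝ) ^ Fintype.card ι)⁻¹ * ∑ σ : ι → Bool, ‖∑ i, sgn (σ i) • x i‖ ^ 2

theorem radSq_nonneg {ι : Type*} [Fintype ι] [DecidableEq ι] (x : ι → X) : 0 ≤ radSq x :=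
  mul_nonneg (by positivity) (Finset.sum_nonneg fun _ _ => sq_nonneg _)

theorem radSq_le_sq {ι : Type*} [Fintype ι] [DecidableEq ι] (x : ι → X) :
    radSq x ≤ (∑ i, ‖x i‖) ^ 2 := by
  rw [radSq, inv_mul_le_iff₀ (by positivity)]
  refine le_trans (Finset.sum_le_card_nsmul _ _ ((∑ i, ‖x i‖) ^ 2) fun σ _ => ?_) (by simp)
  refine pow_le_pow_left₀ (norm_nonneg _) ((norm_sum_le _ _).trans (le_of_eq ?_)) 2
  simp [norm_smul, abs_sgn]

theorem radSq_equiv {ι κ : Type*} [Fintype ι] [DecidableEq ι] [Fintype κ] [DecidableEq κ]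
    (e : κ ≃ ι) (x : ι → X) : radSq (x ∘ e) = radSq x := by
  unfold radSq
  rw [Fintype.card_congr e]
  congr 1
  refine Fintype.sum_equiv (Equiv.arrowCongr e (Equiv.refl Bool)) _ _ fun σ => ?_
  congr 2
  exact Fintype.sum_equiv e _ _ fun i => by simp [Equiv.arrowCongr]

theorem radSq_subtype {ι : Type*} [Fintype ι] [DecidableEq ι] (P : Finset ι) (x : ι → X)
    (hx : ∀ i ∉ P, x i = 0) : radSq (fun i : P => x i) = radSq x := by
  classical
  unfold radSq
  have h : ∑ σ : ι → Bool, ‖∑ i, sgn (σ i) • x i‖ ^ 2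
      = ((Fintype.card ({i // i ∉ P} → Bool) : ℕ) : ℝ) *
        ∑ τ : P → Bool, ‖∑ i : P, sgn (τ i) • x i‖ ^ 2 := by
    have h1 : ∀ σ : ι → Bool, ∑ i, sgn (σ i) • x i = ∑ i : P, sgn (σ i) • x i := by
      intro σ
      rw [Finset.sum_coe_sort P (fun i => sgn (σ i) • x i)]
      exact (Finset.sum_subset (subset_univ P) fun i _ hi => by simp [hx i hi]).symm
    simp_rw [h1]
    rw [Fintype.sum_equiv (Equiv.piEquivPiSubtypeProd (fun i => i ∈ P) fun _ => Bool) _
      (fun q => ‖∑ i : P, sgn (q.1 i) • x i‖ ^ 2) (fun σ => by rfl), Fintype.sum_prod_type,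
      Finset.mul_sum]
    simp
  rw [h, ← mul_assoc]
  congr 1
  simp only [Fintype.card_fun, Fintype.card_bool, Fintype.card_coe, Fintype.card_subtype_compl]
  push_cast
  have : P.card ≤ Fintype.card ι := P.card_le_univ
  rw [eq_comm, inv_mul_eq_iff_eq_mul₀ (by positivity), ← div_eq_mul_inv,
    eq_div_iff (by positivity), ← pow_add]
  congr 1; omega

theorem sqrt_radSq_eq {ι : Type*} [Fintype ι] [DecidableEq ι] (x : ι → X) :
    Real.sqrt (radSq x) = Real.sqrt ((2 : ℝ) ^ Fintype.card ι)⁻¹ *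
      ‖(WithLp.toLp 2 (fun σ => ∑ i, sgn (σ i) • x i) : PiLp 2 fun _ : ι → Bool => X)‖ := by
  rw [PiLp.norm_eq_of_L2, radSq, Real.sqrt_mul (by positivity)]

theorem sqrt_radSq_sum {ι κ : Type*} [Fintype ι] [DecidableEq ι] (s : Finset κ)
    (z : κ → ι → X) :
    Real.sqrt (radSq (fun i => ∑ l ∈ s, z l i)) ≤ ∑ l ∈ s, Real.sqrt (radSq (z l)) := by
  simp only [sqrt_radSq_eq, ← Finset.mul_sum]
  refine mul_le_mul_of_nonneg_left (le_trans (le_of_eq ?_) (norm_sum_le _ _)) (Real.sqrt_nonneg _)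
  congr 1
  rw [← WithLp.toLp_sum]
  congr 1
  funext σ
  simp only [Finset.smul_sum, Finset.sum_apply]
  exact Finset.sum_comm

theorem radSq_smul {ι : Type*} [Fintype ι] [DecidableEq ι] (c : ℝ) (x : ι → X) :
    radSq (fun i => c • x i) = c ^ 2 * radSq x := by
  simp only [radSq, smul_comm _ c, ← Finset.smul_sum, norm_smul, mul_pow, Real.norm_eq_abs,
    sq_abs, ← Finset.mul_sum]
  ring

/-- `E ‖∑_{i ≤ n} εᵢ xᵢ‖² ≤ θ n ∑ ‖xᵢ‖²`. -/
def Good (X : Type*) [NormedAddCommGroup X] [NormedSpace ℝ X] (n : ℕ) (θ : ℝ) : Prop :=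
  ∀ x : Fin n → X, radSq x ≤ θ * n * ∑ i, ‖x i‖ ^ 2

theorem good_one : Good X 1 1 := by
  intro x
  refine le_trans (radSq_le_sq x) ?_
  simp

theorem good_mul {m n : ℕ} {a b : ℝ} (ha : 0 ≤ a) (hA : Good X m a) (hB : Good X n b) :
    Good X (m * n) (a * b) := by
  classical
  intro x
  set y : Fin m × Fin n → X := x ∘ finProdFinEquiv with hy
  have hsum : ∑ i, ‖x i‖ ^ 2 = ∑ i, ∑ j, ‖y (i, j)‖ ^ 2 := by
    rw [← Fintype.sum_prod_type (fun q => ‖y q‖ ^ 2)]
    exact (Equiv.sum_comp finProdFinEquiv (fun i => ‖x i‖ ^ 2)).symm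
  rw [← radSq_equiv finProdFinEquiv x, ← hy, hsum]
  let Y : Fin m → (Fin n → Bool) → X := fun i ρ => ∑ j, sgn (ρ j) • y (i, j)
  have hF : ∑ σ : Fin m × Fin n → Bool, ‖∑ q, sgn (σ q) • y q‖ ^ 2
      = ∑ σ : Fin m → Fin n → Bool, ‖∑ i, Y i (σ i)‖ ^ 2 := by
    refine Fintype.sum_equiv (Equiv.curry (Fin m) (Fin n) Bool) _ _ fun σ => ?_
    rw [Fintype.sum_prod_type]; rfl
  have hflip : ∀ τ : Fin m → Bool, ∑ σ : Fin m → Fin n → Bool, ‖∑ i, Y i (σ i)‖ ^ 2
      = ∑ σ : Fin m → Fin n → Bool, ‖∑ i, sgn (τ i) • Y i (σ i)‖ ^ 2 := by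
    intro τ
    have hinv : Function.Involutive
        (fun σ : Fin m → Fin n → Bool => fun i j => if τ i then σ i j else !(σ i j)) := by
      intro σ; funext i j; cases h : τ i <;> simp [h]
    rw [← hinv.bijective.sum_comp (fun σ => ‖∑ i, sgn (τ i) • Y i (σ i)‖ ^ 2)]
    refine Finset.sum_congr rfl fun σ _ => ?_
    congr 2
    refine Finset.sum_congr rfl fun i _ => ?_
    simp only [Y, Finset.smul_sum, smul_smul]
    refine Finset.sum_congr rfl fun j _ => ?_
    congr 1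
    cases τ i <;> cases σ i j <;> simp [sgn]
  have hrow : ∀ i, ∑ σ : Fin m → Fin n → Bool, ‖Y i (σ i)‖ ^ 2
      ≤ (2 : ℝ) ^ (m * n) * (b * n * ∑ j, ‖y (i, j)‖ ^ 2) := by
    intro i
    have hb := hB fun j => y (i, j)
    rw [radSq, inv_mul_le_iff₀ (by positivity), Fintype.card_fin] at hb
    rw [Fintype.sum_equiv (Equiv.funSplitAt i (Fin n → Bool)) _ (fun q => ‖Y i q.1‖ ^ 2)
      (fun σ => by rfl), Fintype.sum_prod_type]
    simp only [Finset.sum_const, Finset.card_univ, nsmul_eq_mul, ← Finset.mul_sum]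
    refine le_trans (mul_le_mul_of_nonneg_left hb (Nat.cast_nonneg _)) (le_of_eq ?_)
    simp only [Fintype.card_fun, Fintype.card_bool, Fintype.card_fin, ne_eq,
      Fintype.card_subtype_compl, Fintype.card_subtype_eq]
    push_cast
    rw [← mul_assoc, ← pow_mul, ← pow_add]
    congr 2
    have hm : 0 < m := i.pos
    obtain ⟨m', rfl⟩ := Nat.exists_eq_succ_of_ne_zero hm.ne'
    simp [Nat.succ_mul]; ring
  rw [radSq, hF, Fintype.card_prod, Fintype.card_fin, Fintype.card_fin,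
    inv_mul_le_iff₀ (by positivity)]
  have h2m : (0 : ℝ) < (2 : ℝ) ^ m := by positivity
  refine le_of_mul_le_mul_left ?_ h2m
  calc (2 : ℝ) ^ m * ∑ σ : Fin m → Fin n → Bool, ‖∑ i, Y i (σ i)‖ ^ 2
      = ∑ σ : Fin m → Fin n → Bool, ∑ τ : Fin m → Bool, ‖∑ i, sgn (τ i) • Y i (σ i)‖ ^ 2 := by
        rw [Finset.sum_comm, ← Finset.sum_congr rfl fun τ _ => hflip τ]; simp
    _ ≤ ∑ σ : Fin m → Fin n → Bool, (2 : ℝ) ^ m * (a * m * ∑ i, ‖Y i (σ i)‖ ^ 2) := by
        refine Finset.sum_le_sum fun σ _ => ?_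
        have h := hA fun i => Y i (σ i)
        rw [radSq, inv_mul_le_iff₀ (by positivity), Fintype.card_fin] at h
        exact h
    _ = (2 : ℝ) ^ m * (a * m * ∑ i, ∑ σ : Fin m → Fin n → Bool, ‖Y i (σ i)‖ ^ 2) := by
        rw [← Finset.mul_sum, ← Finset.mul_sum, Finset.sum_comm]
    _ ≤ (2 : ℝ) ^ m * (a * m * ∑ i, (2 : ℝ) ^ (m * n) * (b * n * ∑ j, ‖y (i, j)‖ ^ 2)) :=
        mul_le_mul_of_nonneg_left (mul_le_mul_of_nonneg_left
          (Finset.sum_le_sum fun i _ => hrow i) (by positivity)) h2m.le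
    _ = _ := by
        simp only [Finset.mul_sum, Nat.cast_mul]
        exact Finset.sum_congr rfl fun i _ => Finset.sum_congr rfl fun j _ => by ring

theorem good_pow {n : ℕ} {θ : ℝ} (h0 : 0 ≤ θ) (h : Good X n θ) (j : ℕ) :
    Good X (n ^ j) (θ ^ j) := by
  induction j with
  | zero => simpa using good_one (X := X)
  | succ j ih => rw [pow_succ, pow_succ]; exact good_mul (pow_nonneg h0 j) ih h

/-- Almost extremal families span almost isometric copies of `ℓ₁ⁿ`. -/
theorem exists_good (h : ¬ HasUniformEllOne X) :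
    ∃ n, 2 ≤ n ∧ ∃ θ : ℝ, 0 ≤ θ ∧ θ < 1 ∧ Good X n θ := by
  classical
  by_contra hcon
  push Not at hcon
  refine h ⟨4, fun s => ?_⟩
  set n := s + 2 with hn
  set t : ℝ := 1 / (4 * (n + 1)) with ht
  set η : ℝ := t ^ 2 / (2 * n + 1) with hη
  have ht0 : 0 < t := by rw [ht]; positivity
  have ht1 : t ≤ 1 := by
    rw [ht, div_le_one₀ (by positivity)]; linarith [(Nat.cast_nonneg n : (0 : ℝ) ≤ n)]
  have hη0 : 0 < η := by rw [hη]; positivity
  have hηt : η ≤ t := by
    rw [hη]; refine le_trans (div_le_self (sq_nonneg _) ?_) (by nlinarith)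
    linarith [(Nat.cast_nonneg n : (0 : ℝ) ≤ n)]
  have hη1 : η ≤ 1 := hηt.trans ht1
  set ε : ℝ := η / (2 : ℝ) ^ n with hε
  have hε0 : 0 < ε := by rw [hε]; positivity
  have hε1 : ε ≤ 1 := le_trans (div_le_self hη0.le (one_le_pow₀ one_le_two)) hη1
  have hbad := hcon n (by omega) (1 - ε) (by linarith) (by linarith)
  rw [Good] at hbad; push Not at hbad
  obtain ⟨x₀, hx₀⟩ := hbad
  have hN : 0 < ∑ i, ‖x₀ i‖ ^ 2 := by
    refine lt_of_le_of_ne (Finset.sum_nonneg fun _ _ => sq_nonneg _) fun h0 => ?_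
    rw [← h0, mul_zero] at hx₀
    have hz : ∀ i, ‖x₀ i‖ = 0 := fun i => pow_eq_zero_iff two_ne_zero |>.mp
      ((Finset.sum_eq_zero_iff_of_nonneg fun _ _ => sq_nonneg _).mp h0.symm i (mem_univ i))
    have := radSq_le_sq x₀
    simp [hz] at this
    linarith
  have hnR : (0 : ℝ) < n := by rw [hn]; positivity
  set c : ℝ := Real.sqrt (n / ∑ i, ‖x₀ i‖ ^ 2) with hc
  set x : Fin n → X := fun i => c • x₀ i with hx
  have hxN : ∑ i, ‖x i‖ ^ 2 = n := by
    simp only [hx, norm_smul, mul_pow, Real.norm_eq_abs, sq_abs, ← Finset.mul_sum]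
    rw [hc, Real.sq_sqrt (by positivity), div_mul_cancel₀ _ hN.ne']
  have hxr : (1 - ε) * (n : ℝ) ^ 2 < radSq x := by
    rw [hx, radSq_smul, hc, Real.sq_sqrt (by positivity)]
    calc (1 - ε) * (n : ℝ) ^ 2
        = n / (∑ i, ‖x₀ i‖ ^ 2) * ((1 - ε) * n * ∑ i, ‖x₀ i‖ ^ 2) := by field_simp
      _ < _ := mul_lt_mul_of_pos_left hx₀ (by positivity)
  have hl1 : ∑ i, ‖x i‖ ≤ n := by
    have := sq_sum_le_card_mul_sum_sq (s := (univ : Finset (Fin n))) (f := fun i => ‖x i‖)
    simp only [Finset.card_univ, Fintype.card_fin, hxN] at this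
    exact (pow_le_pow_iff_left₀ (Finset.sum_nonneg fun _ _ => norm_nonneg _) hnR.le
      two_ne_zero).mp (by rw [sq (n : ℝ)]; exact this)
  set S : (Fin n → Bool) → X := fun σ => ∑ i, sgn (σ i) • x i with hS
  have hSle : ∀ σ, ‖S σ‖ ≤ ∑ i, ‖x i‖ := fun σ =>
    (norm_sum_le _ _).trans (le_of_eq (by simp [norm_smul, abs_sgn]))
  have hSge : ∀ σ, (n : ℝ) * (1 - η) ≤ ‖S σ‖ := by
    intro σ
    have h1 : (1 - η) * (n : ℝ) ^ 2 ≤ ‖S σ‖ ^ 2 := by
      rw [radSq, lt_inv_mul_iff₀ (by positivity), Fintype.card_fin,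
        ← Finset.add_sum_erase _ _ (mem_univ σ)] at hxr
      have h2 : ∑ τ ∈ univ.erase σ, ‖S τ‖ ^ 2 ≤ ((2 : ℝ) ^ n - 1) * (n : ℝ) ^ 2 := by
        refine le_trans (Finset.sum_le_card_nsmul _ _ ((n : ℝ) ^ 2) fun τ _ =>
          pow_le_pow_left₀ (norm_nonneg _) ((hSle τ).trans hl1) 2) (le_of_eq ?_)
        rw [Finset.card_erase_of_mem (mem_univ σ), nsmul_eq_mul, Finset.card_univ,
          Nat.cast_sub (Fintype.card_pos)]
        simp
      have h3 : ((2 : ℝ) ^ n) * ε = η := by rw [hε]; field_simp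
      nlinarith [sq_nonneg (n : ℝ)]
    refine (pow_le_pow_iff_left₀ (mul_nonneg hnR.le (by linarith)) (norm_nonneg _)
      two_ne_zero).mp (le_trans ?_ h1)
    nlinarith [mul_nonneg (mul_nonneg hη0.le (by linarith : (0:ℝ) ≤ 1 - η)) (sq_nonneg (n : ℝ))]
  have hxle : ∀ i, ‖x i‖ ≤ 1 + t := by
    intro i
    have h1 : (‖x i‖ - 1) ^ 2 ≤ ∑ j, (‖x j‖ - 1) ^ 2 :=
      Finset.single_le_sum (f := fun j => (‖x j‖ - 1) ^ 2) (fun j _ => sq_nonneg _) (mem_univ i)
    simp only [sub_sq, mul_one, one_pow, Finset.sum_add_distrib, Finset.sum_sub_distrib,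
      ← Finset.mul_sum, hxN, Finset.sum_const, Finset.card_univ, Fintype.card_fin,
      nsmul_eq_mul] at h1
    have h2 := (hSge fun _ => true).trans (hSle _)
    have h3 : η * (2 * n) ≤ t ^ 2 := by
      have : η * (2 * n + 1) = t ^ 2 := by rw [hη]; field_simp
      linarith
    nlinarith
  have hsn : s ≤ n := by omega
  let x' : Fin s → X := fun i => (1 + t)⁻¹ • x (Fin.castLE hsn i)
  have hx' : ∀ i, ‖x' i‖ ≤ 1 := fun i => by
    simp only [x', norm_smul, Real.norm_eq_abs, abs_of_pos (by positivity : (0:ℝ) < (1 + t)⁻¹)]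
    rw [inv_mul_le_iff₀ (by positivity), mul_one]; exact hxle _
  refine ⟨x', fun a => ⟨?_, ?_⟩⟩
  swap
  · refine (norm_sum_le _ _).trans (Finset.sum_le_sum fun i _ => ?_)
    rw [norm_smul, Real.norm_eq_abs]
    exact mul_le_of_le_one_right (abs_nonneg _) (hx' i)
  set M := ∑ i, |a i| with hM
  have hM0 : 0 ≤ M := Finset.sum_nonneg fun _ _ => abs_nonneg _
  let b : Fin n → ℝ := fun j => if hj : j.val < s then a ⟨j, hj⟩ else 0
  have hb : ∑ i, a i • x (Fin.castLE hsn i) = ∑ j, b j • x j := by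
    refine Fintype.sum_of_injective (Fin.castLE hsn) (Fin.castLE_injective hsn) _ _ ?_ ?_
    · intro j hj
      have : ¬ j.val < s := fun h => hj ⟨⟨j, h⟩, rfl⟩
      simp [b, this]
    · intro i; simp [b]
  have hbM : ∑ j, |b j| = M := by
    refine (Fintype.sum_of_injective (Fin.castLE hsn) (Fin.castLE_injective hsn) _ _ ?_ ?_).symm
    · intro j hj
      have : ¬ j.val < s := fun h => hj ⟨⟨j, h⟩, rfl⟩
      simp [b, this]
    · intro i; simp [b]
  let σ : Fin n → Bool := fun j => decide (0 ≤ b j)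
  have hσ : ∀ j, sgn (σ j) * |b j| = b j := by
    intro j
    by_cases hj : 0 ≤ b j
    · simp [σ, sgn, hj, abs_of_nonneg hj]
    · simp [σ, sgn, hj, abs_of_neg (not_le.mp hj)]
  have hlow : (n : ℝ) * (1 - η) * M - (n * M - M) * (1 + t) ≤ ‖∑ j, b j • x j‖ := by
    have h1 : ‖M • S σ - ∑ j, b j • x j‖ ≤ (n * M - M) * (1 + t) := by
      have e : M • S σ - ∑ j, b j • x j = ∑ j, (sgn (σ j) * (M - |b j|)) • x j := by
        simp only [hS, Finset.smul_sum, smul_smul, ← Finset.sum_sub_distrib, ← sub_smul]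
        refine Finset.sum_congr rfl fun j _ => ?_
        congr 1; rw [mul_sub, hσ]; ring
      rw [e]
      refine (norm_sum_le _ _).trans ?_
      calc ∑ j, ‖(sgn (σ j) * (M - |b j|)) • x j‖
          ≤ ∑ j, (M - |b j|) * (1 + t) := Finset.sum_le_sum fun j _ => by
            have hle : |b j| ≤ M := hbM ▸
              Finset.single_le_sum (fun i _ => abs_nonneg (b i)) (mem_univ j)
            rw [norm_smul, Real.norm_eq_abs, abs_mul, abs_sgn, one_mul,
              abs_of_nonneg (by linarith)]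
            exact mul_le_mul_of_nonneg_left (hxle j) (by linarith)
        _ = _ := by rw [← Finset.sum_mul, Finset.sum_sub_distrib, hbM]; simp
    have h2 : (n : ℝ) * (1 - η) * M ≤ ‖M • S σ‖ := by
      rw [norm_smul, Real.norm_eq_abs, abs_of_nonneg hM0, mul_comm]
      exact mul_le_mul_of_nonneg_left (hSge σ) hM0
    have h3 := norm_sub_norm_le (M • S σ) (∑ j, b j • x j)
    linarith
  simp only [x', smul_comm _ (1 + t)⁻¹, ← Finset.smul_sum, norm_smul, Real.norm_eq_abs,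
    abs_of_pos (by positivity : (0:ℝ) < (1 + t)⁻¹), hb]
  have hnt : (n : ℝ) * t ≤ 1 / 4 := by
    rw [ht, mul_one_div, div_le_iff₀ (by positivity)]; linarith
  have h4 : M / 2 ≤ ‖∑ j, b j • x j‖ := by nlinarith [mul_le_mul_of_nonneg_left hηt hnR.le]
  calc M ≤ 4 * (1 / 2 * (M / 2)) := by linarith
    _ ≤ 4 * ((1 + t)⁻¹ * ‖∑ j, b j • x j‖) := by
        refine mul_le_mul_of_nonneg_left (mul_le_mul ?_ h4 (by linarith) (by positivity))
          (by norm_num)
        rw [one_div]; exact inv_anti₀ (by positivity) (by linarith)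

theorem hasRadType_of_not_ellOne (h : ¬ HasUniformEllOne X) :
    ∃ p : ℝ, 1 < p ∧ p ≤ 2 ∧ HasRadType X p := by
  classical
  obtain ⟨n, hn, θ, hθ0, hθ1, hgood⟩ := exists_good h
  have hnR : (2 : ℝ) ≤ n := by exact_mod_cast hn
  set θ' : ℝ := max θ (1 / n) with hθ'
  have hθ'1 : θ' < 1 := max_lt hθ1 ((div_lt_one (by linarith)).mpr (by linarith))
  set q : ℝ := Real.sqrt θ' * n with hq
  have hθ'0 : 0 < θ' := lt_max_of_lt_right (by positivity)
  have hq1 : 1 ≤ q := by
    rw [hq]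
    calc (1 : ℝ) ≤ Real.sqrt (1 / n) * n := by
          rw [show Real.sqrt (1 / (n:ℝ)) * n = Real.sqrt n by
            rw [one_div, Real.sqrt_inv]; field_simp; rw [Real.sq_sqrt (by linarith)]]
          exact Real.one_le_sqrt.mpr (by linarith)
      _ ≤ _ := mul_le_mul_of_nonneg_right (Real.sqrt_le_sqrt (le_max_right _ _)) (by linarith)
  have hqn : q < n := by
    rw [hq]
    exact mul_lt_of_lt_one_left (by linarith) (by
      rw [Real.sqrt_lt' one_pos, one_pow]; exact hθ'1)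
  set α : ℝ := Real.log q / Real.log n with hα
  have hlogn : 0 < Real.log n := Real.log_pos (by linarith)
  have hα0 : 0 ≤ α := div_nonneg (Real.log_nonneg hq1) hlogn.le
  have hα1 : α < 1 := (div_lt_one hlogn).mpr (Real.log_lt_log (by linarith) hqn)
  have hqα : q = (n : ℝ) ^ α := by
    rw [Real.rpow_def_of_pos (by linarith), hα, mul_div_cancel₀ _ hlogn.ne',
      Real.exp_log (by linarith)]
  set p : ℝ := 2 / (1 + α) with hp
  have hp1 : 1 < p := by rw [hp, lt_div_iff₀ (by linarith)]; linarith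
  have hp2 : p ≤ 2 := by rw [hp, div_le_iff₀ (by linarith)]; linarith
  have hpα : p * α < 1 := by
    rw [hp, div_mul_eq_mul_div, div_lt_one₀ (by linarith)]; linarith
  set Q : ℝ := (2 : ℝ) ^ (p * α - 1) with hQ
  have hQ0 : 0 < Q := by rw [hQ]; positivity
  have hQ1 : Q < 1 := Real.rpow_lt_one_of_one_lt_of_neg one_lt_two (by linarith)
  set D : ℝ := n * (2 : ℝ) ^ (p * α) * (1 - Q)⁻¹ with hD
  have hD0 : 0 ≤ D := by
    have : 0 ≤ (1 - Q)⁻¹ := inv_nonneg.mpr (by linarith)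
    rw [hD]; positivity
  refine ⟨p, hp1, hp2, D, fun s x => ?_⟩
  have hrad : ((2 : ℝ) ^ s)⁻¹ * ∑ σ : Fin s → Bool, ‖∑ i, sgn (σ i) • x i‖ ^ 2 = radSq x := by
    simp [radSq]
  rw [hrad]
  set N : ℝ := ∑ i, ‖x i‖ ^ p with hN
  have hN0 : 0 ≤ N := Finset.sum_nonneg fun _ _ => Real.rpow_nonneg (norm_nonneg _) _
  rcases hN0.eq_or_lt with hz | hNp
  · have hz' : ∀ i, ‖x i‖ = 0 := fun i => (Real.rpow_eq_zero (norm_nonneg _) (by linarith)).mp
      ((Finset.sum_eq_zero_iff_of_nonneg fun i _ => Real.rpow_nonneg (norm_nonneg _) _).mp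
        hz.symm i (mem_univ i))
    refine le_trans (Real.sqrt_le_sqrt (radSq_le_sq x)) ?_
    simp [hz']; positivity
  set A : ℝ := N ^ (1 / p) with hA
  have hA0 : 0 < A := Real.rpow_pos_of_pos hNp _
  set u : Fin s → X := fun i => A⁻¹ • x i with hu
  have hAp : A ^ p = N := by rw [hA, one_div, Real.rpow_inv_rpow hN0 (by linarith)]
  have huN : ∑ i, ‖u i‖ ^ p = 1 := by
    simp only [hu, norm_smul, Real.norm_eq_abs, abs_of_pos (inv_pos.mpr hA0),
      Real.mul_rpow (inv_pos.mpr hA0).le (norm_nonneg _), ← Finset.mul_sum]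
    rw [Real.inv_rpow hA0.le, hAp, inv_mul_cancel₀ hNp.ne']
  have hex : ∀ i, u i ≠ 0 → ∃ l : ℕ, (1 / 2 : ℝ) ^ (l + 1) < ‖u i‖ := by
    intro i hi
    obtain ⟨l, hl⟩ := exists_pow_lt_of_lt_one (norm_pos_iff.mpr hi) (by norm_num : (1/2:ℝ) < 1)
    exact ⟨l, lt_of_le_of_lt (pow_le_pow_of_le_one (by norm_num) (by norm_num) (Nat.le_succ l)) hl⟩
  let lev : Fin s → ℕ := fun i => if hi : u i ≠ 0 then Nat.find (hex i hi) else 0
  have hle1 : ∀ i, ‖u i‖ ≤ 1 := by
    intro i
    by_contra hgt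
    have h1 := Real.one_lt_rpow (not_le.mp hgt) (by linarith : 0 < p)
    have h2 : ‖u i‖ ^ p ≤ 1 := huN ▸ Finset.single_le_sum
      (fun j _ => Real.rpow_nonneg (norm_nonneg (u j)) p) (mem_univ i)
    linarith
  have hlev : ∀ i, ‖u i‖ ≤ (1 / 2 : ℝ) ^ lev i := by
    intro i
    by_cases hi : u i = 0
    · simp [hi]
    · simp only [lev, dif_pos (show u i ≠ 0 from hi)]
      rcases Nat.eq_zero_or_pos (Nat.find (hex i hi)) with h0 | h0
      · rw [h0, pow_zero]; exact hle1 i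
      · have := Nat.find_min (hex i hi) (Nat.pred_lt h0.ne')
        push Not at this
        rwa [Nat.pred_eq_sub_one, Nat.sub_add_cancel h0] at this
  let z : ℕ → Fin s → X := fun l i => if lev i = l then u i else 0
  set Ls := univ.image lev with hLs
  have hsum : u = fun i => ∑ l ∈ Ls, z l i := by
    funext i
    simp [z, hLs, Finset.sum_ite_eq]
  have hlevel : ∀ l, Real.sqrt (radSq (z l)) ≤ n * (2 : ℝ) ^ (p * α) * Q ^ l := by
    intro l
    set P := univ.filter fun i => lev i = l ∧ u i ≠ 0 with hP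
    have hzP : ∀ i ∉ P, z l i = 0 := by
      intro i hi
      simp only [hP, mem_filter, mem_univ, true_and, not_and, not_not] at hi
      simp only [z]; split_ifs with h1
      · exact hi h1
      · rfl
    have hrhs : 0 ≤ (n : ℝ) * (2 : ℝ) ^ (p * α) * Q ^ l := by positivity
    rcases Nat.eq_zero_or_pos P.card with hc0 | hc0
    · have : z l = 0 := by
        funext i; exact hzP i (by rw [Finset.card_eq_zero.mp hc0]; simp)
      rw [this]; simp [radSq]; exact hrhs
    set j := Nat.clog n P.card with hj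
    have hcj : P.card ≤ n ^ j := Nat.le_pow_clog (by omega) _
    obtain ⟨e⟩ : Nonempty (P ↪ Fin (n ^ j)) :=
      Function.Embedding.nonempty_of_card_le (by simpa using hcj)
    let R : Finset (Fin (n ^ j)) := univ.map e
    let w : Fin (n ^ j) → X := Function.extend e (fun i : P => z l i) 0
    have hw : radSq w = radSq (z l) := by
      rw [← radSq_subtype P (z l) hzP, ← radSq_subtype R w (fun i hi => by
        simp only [w]; rw [Function.extend_apply' _ _ _ (fun ⟨a, ha⟩ => hi (by simp [R, ← ha]))]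
        rfl)]
      let e' : P ≃ R := Equiv.ofBijective (fun i => ⟨e i, by simp [R]⟩) ⟨fun a b hab => e.injective
        (by simpa using congrArg Subtype.val hab), fun r => by
        obtain ⟨a, -, ha⟩ := Finset.mem_map.mp r.2
        exact ⟨a, Subtype.ext ha⟩⟩
      rw [← radSq_equiv e' (fun i : R => w i)]
      congr 1; funext i
      simp only [w, e', Function.comp_apply, Equiv.ofBijective_apply]
      exact e.injective.extend_apply _ _ i
    set β : ℝ := (1 / 2 : ℝ) ^ l with hβ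
    have hwsq : ∑ i, ‖w i‖ ^ 2 ≤ ((n ^ j : ℕ) : ℝ) * β ^ 2 := by
      refine le_trans (Finset.sum_le_card_nsmul _ _ (β ^ 2) fun i _ => ?_) (le_of_eq (by simp))
      refine pow_le_pow_left₀ (norm_nonneg _) ?_ 2
      by_cases hi : ∃ a, e a = i
      · obtain ⟨a, rfl⟩ := hi
        simp only [w, e.injective.extend_apply, z]
        split_ifs with h1
        · rw [hβ, ← h1]; exact hlev _
        · simp [hβ]
      · simp only [w, Function.extend_apply' _ _ _ hi]; simp [hβ]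
    have hb := good_pow hθ0 hgood j w
    rw [hw] at hb
    have h1 : radSq (z l) ≤ (q ^ j * β) ^ 2 := by
      refine le_trans hb (le_trans (mul_le_mul_of_nonneg_left hwsq (by positivity)) ?_)
      calc θ ^ j * ((n ^ j : ℕ) : ℝ) * (((n ^ j : ℕ) : ℝ) * β ^ 2)
          = (θ * (n : ℝ) ^ 2) ^ j * β ^ 2 := by push_cast; rw [mul_pow, ← pow_mul]; ring
        _ ≤ (θ' * (n : ℝ) ^ 2) ^ j * β ^ 2 := by
            gcongr; exact le_max_left _ _
        _ = ((Real.sqrt θ' * n) ^ 2) ^ j * β ^ 2 := by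
            rw [mul_pow (Real.sqrt θ'), Real.sq_sqrt hθ'0.le]
        _ = _ := by rw [hq]; ring
    refine le_trans (Real.sqrt_le_sqrt h1) ?_
    rw [Real.sqrt_sq (by positivity)]
    have hcard : (P.card : ℝ) ≤ (2 : ℝ) ^ (((l : ℝ) + 1) * p) := by
      have h2 : ∀ i ∈ P, ((1 / 2 : ℝ) ^ (l + 1)) ^ p ≤ ‖u i‖ ^ p := by
        intro i hi
        simp only [hP, mem_filter, mem_univ, true_and] at hi
        refine Real.rpow_le_rpow (by positivity) ?_ (by linarith)
        have := Nat.find_spec (hex i hi.2)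
        have hl : Nat.find (hex i hi.2) = l := by
          have := hi.1; simp only [lev, dif_pos hi.2] at this; exact this
        rw [hl] at this; exact this.le
      have h3 := (Finset.card_nsmul_le_sum P _ _ h2).trans
        ((Finset.sum_le_univ_sum_of_nonneg fun i => Real.rpow_nonneg (norm_nonneg (u i)) p).trans_eq
          huN)
      rw [nsmul_eq_mul, one_div, inv_pow, Real.inv_rpow (by positivity), mul_inv_le_iff₀
        (by positivity), one_mul, ← Real.rpow_natCast, ← Real.rpow_mul two_pos.le] at h3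
      exact_mod_cast h3
    have hnj : ((n : ℝ) ^ j) ≤ n * P.card := by
      rcases eq_or_lt_of_le (show 1 ≤ P.card from hc0) with h1' | h1'
      · rw [hj, ← h1', Nat.clog_one_right, pow_zero]; simp; linarith
      · have := Nat.pow_pred_clog_lt_self (b := n) (by omega) h1'
        rw [← hj, Nat.pred_eq_sub_one] at this
        have hjp : 1 ≤ j := by
          rw [hj]; exact Nat.clog_pos (by omega) h1'
        calc (n : ℝ) ^ j = n * (n : ℝ) ^ (j - 1) := by
              rw [← pow_succ', Nat.sub_add_cancel hjp]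
          _ ≤ _ := mul_le_mul_of_nonneg_left (by exact_mod_cast this.le) (by linarith)
    have h5 : q ^ j ≤ n * (2 : ℝ) ^ (((l : ℝ) + 1) * p * α) := by
      calc q ^ j = ((n : ℝ) ^ j) ^ α := by
            rw [hqα, ← Real.rpow_natCast, ← Real.rpow_natCast (n : ℝ), ← Real.rpow_mul (by linarith),
              ← Real.rpow_mul (by linarith), mul_comm]
        _ ≤ ((n : ℝ) * P.card) ^ α := Real.rpow_le_rpow (by positivity) hnj hα0
        _ = (n : ℝ) ^ α * (P.card : ℝ) ^ α := Real.mul_rpow (by linarith) (Nat.cast_nonneg _)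
        _ ≤ n * ((2 : ℝ) ^ (((l : ℝ) + 1) * p)) ^ α :=
            mul_le_mul (by rw [← hqα]; exact hqn.le)
              (Real.rpow_le_rpow (Nat.cast_nonneg _) hcard hα0) (Real.rpow_nonneg (Nat.cast_nonneg _) _) (by linarith)
        _ = _ := by rw [← Real.rpow_mul two_pos.le]
    refine le_trans (mul_le_mul_of_nonneg_right h5 (by positivity)) (le_of_eq ?_)
    have hQl : (2 : ℝ) ^ (((l : ℝ) + 1) * p * α) * β = (2 : ℝ) ^ (p * α) * Q ^ l := by
      rw [hβ, hQ, one_div, inv_pow, ← Real.rpow_natCast 2 l, ← Real.rpow_neg two_pos.le,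
        ← Real.rpow_natCast _ l, ← Real.rpow_mul two_pos.le, ← Real.rpow_add two_pos,
        ← Real.rpow_add two_pos]
      congr 1; ring
    rw [mul_assoc, hQl]; ring
  have hu' : Real.sqrt (radSq u) ≤ D := by
    rw [hsum]
    refine le_trans (sqrt_radSq_sum Ls z) (le_trans (Finset.sum_le_sum fun l _ => hlevel l) ?_)
    rw [← Finset.mul_sum, hD]
    refine mul_le_mul_of_nonneg_left ?_ (by positivity)
    rw [← tsum_geometric_of_lt_one hQ0.le hQ1]
    exact (summable_geometric_of_lt_one hQ0.le hQ1).sum_le_tsum _ fun l _ => by positivity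
  rw [hu, radSq_smul, Real.sqrt_mul (sq_nonneg _), Real.sqrt_sq (inv_pos.mpr hA0).le,
    inv_mul_le_iff₀ hA0] at hu'
  linarith

end Vale.Agent.P111
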