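import Vale.Agent.P111.Cube

/-! Multiplier operators on vector valued functions on the cube. -/

set_option linter.unusedSectionVars false

namespace Vale.Agent.P111

open Finset

variable {k : ℕ} {E F : Type*} [NormedAddCommGroup E] [NormedSpace ℝ E]
  [NormedAddCommGroup F] [NormedSpace ℝ F]

/-- Kernel of the multiplier with symbol `m`. -/
def mker (m : Finset (Fin k) → ℝ) (x y : Fin k → Bool) : ℝ :=
  ∑ S, m S * (walsh S x * walsh S y)

/-- The multiplier with symbol `m` on vector valued functions. -/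
noncomputable def vmult (m : Finset (Fin k) → ℝ) (f : (Fin k → Bool) → E) :
    (Fin k → Bool) → E :=
  fun x => ((2 : ℝ) ^ k)⁻¹ • ∑ y, mker m x y • f y

/-- Unnormalised `L²` norm on the cube. -/
noncomputable def l2n (f : (Fin k → Bool) → E) : ℝ := Real.sqrt (∑ x, ‖f x‖ ^ 2)

theorem l2n_nonneg (f : (Fin k → Bool) → E) : 0 ≤ l2n f := Real.sqrt_nonneg _

theorem l2n_sq (f : (Fin k → Bool) → E) : l2n f ^ 2 = ∑ x, ‖f x‖ ^ 2 :=
  Real.sq_sqrt (Finset.sum_nonneg fun _ _ => sq_nonneg _)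

theorem l2n_eq (f : (Fin k → Bool) → E) :
    l2n f = ‖(WithLp.toLp 2 f : PiLp 2 fun _ : Fin k → Bool => E)‖ :=
  (PiLp.norm_eq_of_L2 _).symm

theorem l2n_le_of_sq (f : (Fin k → Bool) → E) {B : ℝ} (hB : 0 ≤ B)
    (h : ∑ x, ‖f x‖ ^ 2 ≤ B ^ 2) : l2n f ≤ B :=
  (Real.sqrt_le_sqrt h).trans_eq (Real.sqrt_sq hB)

theorem l2n_sub_le (f g : (Fin k → Bool) → E) : l2n (f - g) ≤ l2n f + l2n g := by
  simp only [l2n_eq, WithLp.toLp_sub]; exact norm_sub_le _ _

theorem l2n_smul (c : ℝ) (f : (Fin k → Bool) → E) : l2n (c • f) = |c| * l2n f := by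
  simp only [l2n_eq, WithLp.toLp_smul, norm_smul, Real.norm_eq_abs]

theorem l2n_sum_le {ι : Type*} (s : Finset ι) (f : ι → (Fin k → Bool) → E) :
    l2n (∑ i ∈ s, f i) ≤ ∑ i ∈ s, l2n (f i) := by
  classical
  induction s using Finset.induction with
  | empty => simp [l2n]
  | insert i s hi ih =>
    rw [Finset.sum_insert hi, Finset.sum_insert hi]
    refine le_trans ?_ (add_le_add le_rfl ih)
    simp only [l2n_eq, WithLp.toLp_add]; exact norm_add_le _ _

theorem l2n_map_le (T : E →L[ℝ] F) (f : (Fin k → Bool) → E) :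
    l2n (fun x => T (f x)) ≤ ‖T‖ * l2n f := by
  refine l2n_le_of_sq _ (by positivity [l2n_nonneg f]) ?_
  rw [mul_pow, l2n_sq, Finset.mul_sum]
  refine Finset.sum_le_sum fun x _ => ?_
  rw [← mul_pow]; exact pow_le_pow_left₀ (norm_nonneg _) (T.le_opNorm _) 2

theorem vmult_map (m : Finset (Fin k) → ℝ) (T : E →L[ℝ] F) (f : (Fin k → Bool) → E) :
    vmult m (fun x => T (f x)) = fun x => T (vmult m f x) := by
  funext x; simp [vmult, map_sum]

theorem vmult_congr {m m' : Finset (Fin k) → ℝ} (h : ∀ S, m S = m' S)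
    (f : (Fin k → Bool) → E) : vmult m f = vmult m' f := by rw [funext h]

theorem vmult_sub (m m' : Finset (Fin k) → ℝ) (f : (Fin k → Bool) → E) :
    vmult (fun S => m S - m' S) f = vmult m f - vmult m' f := by
  funext x
  simp [vmult, mker, sub_mul, Finset.sum_sub_distrib, sub_smul, smul_sub]

theorem vmult_sum {ι : Type*} (s : Finset ι) (a : ι → ℝ) (m : ι → Finset (Fin k) → ℝ)
    (f : (Fin k → Bool) → E) :
    vmult (fun S => ∑ j ∈ s, a j * m j S) f = ∑ j ∈ s, a j • vmult (m j) f := by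
  funext x
  have h : ∀ y, mker (fun S => ∑ j ∈ s, a j * m j S) x y = ∑ j ∈ s, a j * mker (m j) x y := by
    intro y; simp only [mker, Finset.sum_mul, Finset.mul_sum]
    rw [Finset.sum_comm]; simp [mul_assoc]
  simp only [vmult, h, Finset.sum_apply, Pi.smul_apply, Finset.sum_smul]
  rw [Finset.sum_comm]
  simp only [Finset.smul_sum, smul_smul]
  exact Finset.sum_congr rfl fun j _ => Finset.sum_congr rfl fun y _ => by rw [mul_left_comm]

theorem mker_comp (m m' : Finset (Fin k) → ℝ) (x z : Fin k → Bool) :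
    ∑ y, mker m x y * mker m' y z = (2 : ℝ) ^ k * mker (fun S => m S * m' S) x z := by
  classical
  simp only [mker, Finset.sum_mul, Finset.mul_sum]
  rw [Finset.sum_comm]
  refine Finset.sum_congr rfl fun S _ => ?_
  rw [Finset.sum_comm]
  have h : ∀ T : Finset (Fin k), ∑ y : Fin k → Bool,
      m T * (walsh T x * walsh T y) * (m' S * (walsh S y * walsh S z))
      = if T = S then (2 : ℝ) ^ k * (m T * m' S * (walsh T x * walsh S z)) else 0 := by
    intro T
    calc ∑ y : Fin k → Bool, m T * (walsh T x * walsh T y) * (m' S * (walsh S y * walsh S z))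
        = m T * m' S * (walsh T x * walsh S z) * ∑ y : Fin k → Bool, walsh T y * walsh S y := by
          rw [Finset.mul_sum]; exact Finset.sum_congr rfl fun y _ => by ring
      _ = _ := by rw [walsh_orth]; split_ifs <;> ring
  rw [Finset.sum_congr rfl fun T _ => h T]
  simp

theorem vmult_comp (m m' : Finset (Fin k) → ℝ) (f : (Fin k → Bool) → E) :
    vmult m (vmult m' f) = vmult (fun S => m S * m' S) f := by
  funext x
  simp only [vmult, Finset.smul_sum, smul_smul]
  rw [Finset.sum_comm]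
  refine Finset.sum_congr rfl fun z _ => ?_
  rw [← Finset.sum_smul]
  congr 1
  have h := mker_comp m m' x z
  have h2 : (2 : ℝ) ^ k ≠ 0 := pow_ne_zero _ two_ne_zero
  calc ∑ y, ((2 : ℝ) ^ k)⁻¹ * (mker m x y * (((2 : ℝ) ^ k)⁻¹ * mker m' y z))
      = ((2 : ℝ) ^ k)⁻¹ * ((2 : ℝ) ^ k)⁻¹ * ∑ y, mker m x y * mker m' y z := by
        rw [Finset.mul_sum]; exact Finset.sum_congr rfl fun y _ => by ring
    _ = _ := by rw [h]; field_simp

theorem mker_one (x y : Fin k → Bool) :
    mker (fun _ => (1 : ℝ)) x y = if x = y then (2 : ℝ) ^ k else 0 := by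
  classical
  have h := rw'_expand 1 x y
  simp only [one_pow] at h
  rw [mker, ← h]
  split_ifs with hxy
  · subst hxy; simp [rw', sgn_mul_self]; norm_num
  · obtain ⟨i, hi⟩ := Function.ne_iff.mp hxy
    refine Finset.prod_eq_zero (mem_univ i) ?_
    cases hx : x i <;> cases hy : y i <;> simp_all [sgn]

theorem vmult_one (f : (Fin k → Bool) → E) : vmult (fun _ => (1 : ℝ)) f = f := by
  funext x; simp [vmult, mker_one, ite_smul, smul_smul]

/-- The noise operator is a contraction. -/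
theorem l2n_noise (t : ℝ) (ht : |t| ≤ 1) (f : (Fin k → Bool) → E) :
    l2n (vmult (fun S => t ^ S.card) f) ≤ l2n f := by
  refine l2n_le_of_sq _ (l2n_nonneg f) ?_
  rw [l2n_sq]
  have h2 : (0 : ℝ) < (2 : ℝ) ^ k := by positivity
  have hk : ∀ x y : Fin k → Bool, mker (fun S => t ^ S.card) x y = rw' t x y := fun x y =>
    (rw'_expand t x y).symm
  have hsymm : ∀ x y : Fin k → Bool, rw' t x y = rw' t y x := fun x y =>
    Finset.prod_congr rfl fun i _ => by ring
  have hpt : ∀ x, ‖vmult (fun S => t ^ S.card) f x‖ ^ 2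
      ≤ ((2 : ℝ) ^ k)⁻¹ * ∑ y, rw' t x y * ‖f y‖ ^ 2 := by
    intro x
    simp only [vmult, hk, norm_smul, Real.norm_eq_abs, abs_of_pos (inv_pos.mpr h2), mul_pow]
    have h1 : ‖∑ y, rw' t x y • f y‖ ≤ ∑ y, rw' t x y * ‖f y‖ :=
      le_trans (norm_sum_le _ _) (le_of_eq (Finset.sum_congr rfl fun y _ => by
        rw [norm_smul, Real.norm_eq_abs, abs_of_nonneg (rw'_nonneg t ht x y)]))
    have h3 : (∑ y, rw' t x y * ‖f y‖) ^ 2
        ≤ (∑ y, rw' t x y) * ∑ y, rw' t x y * ‖f y‖ ^ 2 :=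
      Finset.sum_sq_le_sum_mul_sum_of_sq_le_mul _ (fun y _ => rw'_nonneg t ht x y)
        (fun y _ => mul_nonneg (rw'_nonneg t ht x y) (sq_nonneg _)) (fun y _ => le_of_eq (by ring))
    rw [rw'_sum] at h3
    calc (((2 : ℝ) ^ k)⁻¹) ^ 2 * ‖∑ y, rw' t x y • f y‖ ^ 2
        ≤ (((2 : ℝ) ^ k)⁻¹) ^ 2 * ((2 : ℝ) ^ k * ∑ y, rw' t x y * ‖f y‖ ^ 2) :=
          mul_le_mul_of_nonneg_left
            (le_trans (pow_le_pow_left₀ (norm_nonneg _) h1 2) h3) (sq_nonneg _)
      _ = _ := by field_simp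
  refine le_trans (Finset.sum_le_sum fun x _ => hpt x) (le_of_eq ?_)
  rw [← Finset.mul_sum, Finset.sum_comm]
  have : ∀ y, ∑ x, rw' t x y * ‖f y‖ ^ 2 = (2 : ℝ) ^ k * ‖f y‖ ^ 2 := by
    intro y; rw [← Finset.sum_mul]; simp_rw [hsymm _ y]; rw [rw'_sum]
  simp_rw [this, ← Finset.mul_sum]
  field_simp

end Vale.Agent.P111
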